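import Mathlib

/-!
# P167, block 2A-MOM, part 1: from the characteristic function to the first moment

`moment_step`: if the holomorphic functions `V n` are uniformly bounded on a disc and
`V n s - α s * V n 0 → 0` for every small real `s`, where `α 0 = 1` and `α` has the derivative `α'`
at `0`, then `(V n)' 0 - α' * V n 0 → 0`.
-/

open Set Filter Topology Metric

namespace Vale.Agent.P167.H542

/-- A bounded holomorphic function is close to its first Taylor polynomial. -/
theorem taylor_one {V : ℂ → ℂ} {r C : ℝ} (hr : 0 < r) (hV : DifferentiableOn ℂ V (ball 0 r))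
    (hC : ∀ z ∈ ball (0 : ℂ) r, ‖V z‖ ≤ C) {s : ℂ} (hs : ‖s‖ ≤ r / 8) :
    ‖V s - V 0 - s * deriv V 0‖ ≤ 16 * C / r ^ 2 * ‖s‖ ^ 2 := by
  have hC0 : 0 ≤ C := (norm_nonneg _).trans (hC 0 (mem_ball_self hr))
  -- first derivative
  have h1 : ∀ z ∈ ball (0 : ℂ) (r / 2), ‖deriv V z‖ ≤ C / (r / 4) := by
    intro z hz
    refine Complex.norm_deriv_le_of_forall_mem_sphere_norm_le (by positivity) ?_ fun w hw => hC w ?_
    · refine (hV.mono ?_).diffContOnCl_ball (U := ball 0 r) ?_
      · exact subset_rfl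
      · intro w hw
        rw [mem_closedBall, dist_eq_norm] at hw
        rw [mem_ball, dist_zero_right] at hz ⊢
        have := norm_le_norm_add_norm_sub' w z
        linarith
    · rw [mem_sphere, dist_eq_norm] at hw
      rw [mem_ball, dist_zero_right] at hz ⊢
      have := norm_le_norm_add_norm_sub' w z
      linarith
  have hd : DifferentiableOn ℂ (deriv V) (ball 0 r) := hV.deriv isOpen_ball
  -- second derivative
  have h2 : ∀ z ∈ ball (0 : ℂ) (r / 4), ‖deriv (deriv V) z‖ ≤ C / (r / 4) / (r / 4) := by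
    intro z hz
    have hsub : closedBall z (r / 4) ⊆ ball (0 : ℂ) (r / 2) := by
      intro w hw
      rw [mem_closedBall, dist_eq_norm] at hw
      rw [mem_ball, dist_zero_right] at hz ⊢
      have := norm_le_norm_add_norm_sub' w z
      linarith
    refine Complex.norm_deriv_le_of_forall_mem_sphere_norm_le (by positivity) ?_ fun w hw =>
      h1 w (hsub (sphere_subset_closedBall hw))
    exact hd.diffContOnCl_ball (hsub.trans (ball_subset_ball (by linarith)))
  have hseg : ∀ z ∈ ball (0 : ℂ) (r / 4), ‖deriv V z - deriv V 0‖ ≤ 16 * C / r ^ 2 * ‖z‖ := by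
    intro z hz
    have := (convex_ball (0 : ℂ) (r / 4)).norm_image_sub_le_of_norm_deriv_le (f := deriv V)
      (fun w hw => (hd.differentiableAt (isOpen_ball.mem_nhds
        (ball_subset_ball (by linarith) hw)))) (fun w hw => h2 w hw)
      (mem_ball_self (by positivity)) hz
    rw [sub_zero] at this
    refine this.trans (le_of_eq ?_)
    field_simp
    ring
  -- the remainder
  let g : ℂ → ℂ := fun z => V z - z * deriv V 0
  have hg : ∀ z ∈ ball (0 : ℂ) (r / 4), HasDerivAt g (deriv V z - deriv V 0) z := by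
    intro z hz
    have hz' : DifferentiableAt ℂ V z :=
      hV.differentiableAt (isOpen_ball.mem_nhds (ball_subset_ball (by linarith) hz))
    have := hz'.hasDerivAt.sub ((hasDerivAt_id z).mul_const (deriv V 0))
    rw [one_mul] at this
    exact this
  have hsub : closedBall (0 : ℂ) ‖s‖ ⊆ ball 0 (r / 4) := by
    intro w hw
    rw [mem_closedBall, dist_zero_right] at hw
    rw [mem_ball, dist_zero_right]
    linarith
  have := (convex_closedBall (0 : ℂ) ‖s‖).norm_image_sub_le_of_norm_hasDerivWithin_le (f := g)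
    (f' := fun z => deriv V z - deriv V 0) (C := 16 * C / r ^ 2 * ‖s‖)
    (fun z hz => (hg z (hsub hz)).hasDerivWithinAt) (fun z hz => by
      refine (hseg z (hsub hz)).trans ?_
      rw [mem_closedBall, dist_zero_right] at hz
      exact mul_le_mul_of_nonneg_left hz (by positivity))
    (x := 0) (y := s) (by simp) (by simp)
  simp only [g, zero_mul, sub_zero] at this
  calc ‖V s - V 0 - s * deriv V 0‖ = ‖V s - s * deriv V 0 - V 0‖ := by congr 1; ring
    _ ≤ 16 * C / r ^ 2 * ‖s‖ * ‖s‖ := this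
    _ = _ := by ring

/-- From the characteristic function to the first moment. -/
theorem moment_step {V : ℕ → ℂ → ℂ} {r C : ℝ} (hr : 0 < r)
    (hV : ∀ n, DifferentiableOn ℂ (V n) (ball 0 r))
    (hC : ∀ᶠ n in atTop, ∀ z ∈ ball (0 : ℂ) r, ‖V n z‖ ≤ C) {α : ℝ → ℂ} {α' : ℂ} (hα0 : α 0 = 1)
    (hα : HasDerivAt α α' 0)
    (hlim : ∀ s : ℝ, |s| < r → Tendsto (fun n => V n s - α s * V n 0) atTop (𝓝 0)) :
    Tendsto (fun n => deriv (V n) 0 - α' * V n 0) atTop (𝓝 0) := by
  have hC0 : 0 ≤ C := by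
    obtain ⟨n, hn⟩ := hC.exists
    exact (norm_nonneg _).trans (hn 0 (mem_ball_self hr))
  rw [Metric.tendsto_atTop]
  intro ε hε
  -- choose s
  have h1 : ∀ᶠ s : ℝ in 𝓝 0, ‖α s - α 0 - (s - 0) • α'‖ ≤ ε / (4 * (C + 1)) * ‖s - 0‖ :=
    (hasDerivAt_iff_isLittleO.1 hα).def (by positivity)
  obtain ⟨η, hη, hη'⟩ := Metric.eventually_nhds_iff.1 h1
  set K : ℝ := 16 * C / r ^ 2 with hK
  have hK0 : 0 ≤ K := by positivity
  obtain ⟨s, hs0, hs1, hs2, hs3⟩ : ∃ s : ℝ, 0 < s ∧ s ≤ r / 8 ∧ s < η ∧ K * s ≤ ε / 4 := by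
    refine ⟨min (r / 8) (min (η / 2) (ε / (4 * (K + 1)))), by positivity, min_le_left _ _,
      lt_of_le_of_lt ((min_le_right _ _).trans (min_le_left _ _)) (by linarith), ?_⟩
    have h2 : min (r / 8) (min (η / 2) (ε / (4 * (K + 1)))) ≤ ε / (4 * (K + 1)) :=
      (min_le_right _ _).trans (min_le_right _ _)
    calc K * _ ≤ K * (ε / (4 * (K + 1))) := mul_le_mul_of_nonneg_left h2 hK0
      _ ≤ (K + 1) * (ε / (4 * (K + 1))) := mul_le_mul_of_nonneg_right (by linarith) (by positivity)
      _ = ε / 4 := by field_simp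
  have h2 := hη' (y := s) (by rw [Real.dist_eq, sub_zero, abs_of_pos hs0]; exact hs2)
  rw [hα0, sub_zero, Real.norm_of_nonneg hs0.le] at h2
  have h3 := (Metric.tendsto_atTop.1 (hlim s (by rw [abs_of_pos hs0]; linarith))) (ε / 4 * s)
    (by positivity)
  obtain ⟨N1, hN1⟩ := h3
  obtain ⟨N2, hN2⟩ := eventually_atTop.1 hC
  refine ⟨max N1 N2, fun n hn => ?_⟩
  have h4 := hN1 n (le_trans (le_max_left _ _) hn)
  have h5 := hN2 n (le_trans (le_max_right _ _) hn)
  rw [dist_zero_right] at h4 ⊢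
  have hsn : ‖(s : ℂ)‖ = s := by rw [Complex.norm_real, Real.norm_of_nonneg hs0.le]
  have h6 := taylor_one hr (hV n) h5 (s := s) (by rw [hsn]; exact hs1)
  rw [hsn] at h6
  have h7 : ‖V n 0‖ ≤ C := h5 0 (mem_ball_self hr)
  -- the identity
  have e : (s : ℂ) * (deriv (V n) 0 - α' * V n 0) = (V n s - α s * V n 0) +
      (α s - 1 - s • α') * V n 0 - (V n s - V n 0 - s * deriv (V n) 0) := by
    rw [Complex.real_smul]; ring
  have h8 : s * ‖deriv (V n) 0 - α' * V n 0‖ ≤ ε / 4 * s + ε / (4 * (C + 1)) * s * C + K * s ^ 2 := by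
    rw [← hsn, ← norm_mul, e, hsn]
    refine (norm_sub_le _ _).trans (add_le_add ((norm_add_le _ _).trans (add_le_add h4.le ?_)) h6)
    rw [norm_mul]
    exact mul_le_mul h2 h7 (norm_nonneg _) (by positivity)
  have h9 : ε / (4 * (C + 1)) * s * C ≤ ε / 4 * s := by
    have : ε / (4 * (C + 1)) * C ≤ ε / 4 := by
      rw [div_mul_eq_mul_div, div_le_div_iff₀ (by positivity) (by positivity)]
      nlinarith
    calc ε / (4 * (C + 1)) * s * C = ε / (4 * (C + 1)) * C * s := by ring
      _ ≤ _ := mul_le_mul_of_nonneg_right this hs0.le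
  have h10 : K * s ^ 2 ≤ ε / 4 * s := by
    calc K * s ^ 2 = K * s * s := by ring
      _ ≤ _ := mul_le_mul_of_nonneg_right hs3 hs0.le
  have h11 : s * ‖deriv (V n) 0 - α' * V n 0‖ ≤ s * (3 * ε / 4) := by linarith
  have h12 := le_of_mul_le_mul_left h11 hs0
  linarith

end Vale.Agent.P167.H542
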