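import Vale.Agent.P167.H542.Cx
import Vale.Agent.P167.H542.Mom

/-!
# P167, block 2A-MOM, part 3: the moment step for the functionals `VD`
-/

open Finset MeasureTheory ProbabilityTheory Filter Topology

namespace Vale.Agent.P167.H542

open Vale.Agent.P167 Vale.Agent.P167.BR

/-- The moment step: from `V(f + s g) - α(s) V(f) → 0` for small real `s` and a uniform bound of
`V(f + s g)` for small complex `s` to the first moment of `∑ g T`. -/
theorem two_a_mom {D : ℕ → Finset (ℤ × ℤ)} {p : ℕ → ℤ × ℤ} {f g : ℕ → ℤ × ℤ → ℝ} {r C : ℝ}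
    (hr : 0 < r) (hC : ∀ᶠ n in atTop, ∀ s : ℂ, ‖s‖ < r →
      ‖VDc (D n) (p n) (fun z => (f n z : ℂ) + s * (g n z : ℂ))‖ ≤ C)
    {α : ℝ → ℝ} {α' : ℝ} (hα0 : α 0 = 1) (hα : HasDerivAt α α' 0)
    (hlim : ∀ s : ℝ, |s| < r → Tendsto (fun n =>
      VD (D n) (p n) (fun z => f n z + s * g n z) - α s * VD (D n) (p n) (f n)) atTop (𝓝 0)) :
    Tendsto (fun n => (∑ z ∈ sites (D n), g n z * ∫ ω, XT (D n) (p n) (f n) z ω ∂μ) +
      α' * VD (D n) (p n) (f n)) atTop (𝓝 0) := by
  have key := moment_step (V := fun n s => VDc (D n) (p n) (fun z => (f n z : ℂ) + s * (g n z : ℂ)))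
    (r := r) (C := C) hr
    (fun n => (differentiable_VDc _ _).differentiableOn)
    (hC.mono fun n hn z hz => hn z (by simpa using hz))
    (α := fun s => (α s : ℂ)) (α' := (α' : ℂ)) (by simp [hα0]) hα.ofReal_comp (fun s hs => by
      have h := (Complex.continuous_ofReal.tendsto 0).comp (hlim s hs)
      refine (h.congr fun n => ?_).trans (by simp)
      simp only [Function.comp_apply, Complex.ofReal_sub, Complex.ofReal_mul, zero_mul, add_zero,
        VDc_ofReal]
      congr 1
      rw [← VDc_ofReal]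
      congr 1
      funext z
      push_cast
      ring)
  have h2 := (Complex.continuous_re.tendsto _).comp key.neg
  simp only [Complex.zero_re, neg_zero] at h2
  refine h2.congr fun n => ?_
  simp only [Function.comp_apply, deriv_VDc_zero, zero_mul, add_zero, VDc_ofReal]
  simp
  ring

end Vale.Agent.P167.H542
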