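import Vale.Agent.P167.H542.Mm
import Vale.Agent.P167.H542.Dat0

/-!
# P167, block 2A-MOM: the input `I_M2` of the core (uniform bounds for complex charges)
-/

open Finset MeasureTheory ProbabilityTheory Filter Topology

namespace Vale.Agent.P167.H542

open Vale.Agent.P167 Vale.Agent.P167.BR Relation
open Vale.Agent.P167.H436 (ero mem_ero ero_sub econ_ero econ_enl cells_conn mem_enl)
open Vale.Agent.P167.H542.Dt

/-- The eroded polygon is a bulk region. -/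
theorem geo_ero (S : CA.Dat) {n : ℕ} {k : ℤ} (hn : 0 < n) (hk0 : 0 ≤ k) (hk2 : 2 * k < n)
    {δ : ℝ} (hδ : δ + 1 ≤ k) : Geo (S.D n) (S.b n) {z | z ∈ sites (ero S.Q n k)} δ := by
  have hcc : ∀ a ∈ S.Q, ∀ b ∈ S.Q, ReflTransGen (H436.Adj S.Q) a b :=
    fun a ha b hb => cells_conn S.poly S.enc ha hb
  have hsub : ero S.Q n k ⊆ S.D n := ero_sub
  have hE : ECon (ero S.Q n k) := econ_ero hcc hk0 hk2
  refine ⟨?_, ?_, ?_, ?_⟩
  · intro z hz z' hz'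
    have h0 := hE z hz z' hz'
    clear hz'
    induction h0 with
    | refl => exact Relation.ReflTransGen.refl
    | tail _ h3 ih =>
      refine Relation.ReflTransGen.tail ih ?_
      obtain ⟨e, he, h⟩ := h3
      have h1 := ls_mem_sites he
      have h2 := rs_mem_sites he
      rcases h with ⟨rfl, rfl⟩ | ⟨rfl, rfl⟩
      · exact ⟨h1, h2, e, eds_mono hsub he, Or.inl ⟨rfl, rfl⟩⟩
      · exact ⟨h2, h1, e, eds_mono hsub he, Or.inr ⟨rfl, rfl⟩⟩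
  · intro z hz v hv
    obtain ⟨w, hw, h1, h2⟩ := mem_sites.1 hz
    have h3 : (nm (v - z) : ℝ) ≤ ((k - 1 : ℤ) : ℝ) := by push_cast; linarith
    have h4 : nm (v - z) ≤ k - 1 := by exact_mod_cast h3
    rw [H45.nm_le] at h4
    simp only [Prod.fst_sub, Prod.snd_sub, abs_le] at h4
    exact (mem_ero hk0).1 hw v.1 v.2 (by omega) (by omega) (by omega) (by omega)
  · intro z hz
    exact econ_enl hcc hn z (sites_mono hsub hz) _ (sites_D S hn)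
  · intro ω ℓ hℓ hD
    refine W_base S hn (loop_mem_pcs hℓ hD) fun e he => hD _ (Finset.mem_image_of_mem _ he)

/-- The eroded polygon is wide. -/
theorem wide_ero (S : CA.Dat) {n : ℕ} {k : ℤ} (hk0 : 0 ≤ k) (hk2 : 2 * k < n) :
    ∃ z ∈ sites (ero S.Q n k), ∃ z' ∈ sites (ero S.Q n k), (n : ℤ) - 1 - 2 * k ≤ nm (z - z') := by
  obtain ⟨v, hv⟩ : S.Q.Nonempty := by
    have h := (S.enc (S.p 0) S.r).1 ⟨0, rfl, by rw [zero_add]; exact S.step⟩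
    exact ⟨_, h.1⟩
  have key : ∀ c : ℤ, k ≤ c → c + k < n → ((n * v.1 + c, n * v.2 + c) : ℤ × ℤ) ∈ ero S.Q n k := by
    intro c h1 h2
    rw [mem_ero hk0]
    intro i j h3 h4 h5 h6
    dsimp only at h3 h4 h5 h6
    rw [mem_enl]
    exact ⟨v, hv, by dsimp only; omega, by dsimp only; omega, by dsimp only; omega,
      by dsimp only; omega⟩
  have hs : ∀ w ∈ ero S.Q n k, w ∈ sites (ero S.Q n k) := fun w hw =>
    mem_sites.2 ⟨w, hw, Or.inl rfl, Or.inl rfl⟩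
  refine ⟨_, hs _ (key k le_rfl (by omega)), _, hs _ (key (n - 1 - k) (by omega) (by omega)), ?_⟩
  have h1 : |((n * v.1 + k, n * v.2 + k) - (n * v.1 + (n - 1 - k), n * v.2 + (n - 1 - k)) :
      ℤ × ℤ).1| ≤ nm ((n * v.1 + k, n * v.2 + k) - (n * v.1 + (n - 1 - k), n * v.2 + (n - 1 - k)) :
      ℤ × ℤ) := le_max_left _ _
  refine le_trans ?_ h1
  simp only [Prod.fst_sub]
  have e : (n : ℤ) * v.1 + k - (n * v.1 + (n - 1 - k)) = -((n : ℤ) - 1 - 2 * k) := by ring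
  rw [e, abs_neg]
  exact le_abs_self _

theorem int_le_of_lint {F : Cfg → ℝ} (hF : ∀ ω, 0 ≤ F ω) (hm : Measurable F) {C : ℝ} (hC : 0 ≤ C)
    (h : ∫⁻ ω, ENNReal.ofReal (F ω) ∂μ ≤ ENNReal.ofReal C) : ∫ ω, F ω ∂μ ≤ C := by
  rw [integral_eq_lintegral_of_nonneg_ae (Eventually.of_forall hF) hm.aestronglyMeasurable]
  exact ENNReal.toReal_le_of_le_ofReal hC h

/-- The norm of the complex charges. -/
theorem card_sites_le {D : Finset (ℤ × ℤ)} {x : ℝ} (hx : 0 ≤ x) (hD : ∀ v ∈ D, (nm v : ℝ) ≤ x) :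
    ((sites D).card : ℝ) ≤ (2 * x + 3) ^ 2 := by
  set N : ℤ := ⌊x⌋ + 1 with hN
  have hN0 : 0 ≤ N := by have := Int.floor_nonneg.2 hx; omega
  have h1 : sites D ⊆ (Finset.Icc (-N) N) ×ˢ (Finset.Icc (-N) N) := by
    intro z hz
    obtain ⟨v, hv, h1, h2⟩ := mem_sites.1 hz
    have h3 : nm v ≤ ⌊x⌋ := Int.le_floor.2 (hD v hv)
    rw [H45.nm_le, abs_le, abs_le] at h3
    rw [Finset.mem_product, Finset.mem_Icc, Finset.mem_Icc]
    omega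
  have h2 := Finset.card_le_card h1
  rw [Finset.card_product, Int.card_Icc] at h2
  have h3 : ((N + 1 - -N).toNat : ℤ) = 2 * N + 1 := by
    rw [Int.toNat_of_nonneg (by omega)]; ring
  have h4 : ((N + 1 - -N).toNat : ℝ) = 2 * N + 1 := by exact_mod_cast h3
  have h5 : ((sites D).card : ℝ) ≤ ((N + 1 - -N).toNat : ℝ) * ((N + 1 - -N).toNat : ℝ) := by
    exact_mod_cast h2
  rw [h4] at h5
  have h6 : (N : ℝ) ≤ x + 1 := by
    rw [hN]; push_cast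
    linarith [Int.floor_le x]
  have h7 : (0 : ℝ) ≤ N := by exact_mod_cast hN0
  nlinarith

/-- The complex charge `t f + s g` at mesh `1 / n`. -/
noncomputable def Fc (f g : ℂ → ℝ) (n : ℕ) (t : ℝ) (s : ℂ) (z : ℤ × ℤ) : ℂ :=
  ((t * CA.cms f (1 / n) z : ℝ) : ℂ) + s * (CA.cms g (1 / n) z : ℂ)

theorem Fc_bd {f g : ℂ → ℝ} {Mf Mg T Cm : ℝ} (hf0 : 0 ≤ Mf) (hg0 : 0 ≤ Mg)
    (hf : ∀ z, |f z| ≤ Mf) (hg : ∀ z, |g z| ≤ Mg) (hCm : Cm = (|T| + 1) * (Mf + Mg + 1)) {n : ℕ}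
    (hn : 0 < n) {t : ℝ} (ht : |t| ≤ T) {s : ℂ} (hs : ‖s‖ ≤ T) (z : ℤ × ℤ) :
    ‖Fc f g n t s z‖ ≤ Cm / (n : ℝ) ^ 2 := by
  have h1 := cms_abs_le hf hn z
  have h2 := cms_abs_le hg hn z
  have hT : T ≤ |T| := le_abs_self T
  unfold Fc
  refine (norm_add_le _ _).trans ?_
  simp only [norm_mul, Complex.norm_real, Real.norm_eq_abs]
  have hn0 : (0 : ℝ) < (n : ℝ) ^ 2 := by positivity
  have h3 : |t| * |CA.cms f (1 / n) z| ≤ (|T| + 1) * (Mf / (n : ℝ) ^ 2) :=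
    mul_le_mul (by linarith) h1 (abs_nonneg _) (by positivity)
  have h4 : ‖s‖ * |CA.cms g (1 / n) z| ≤ (|T| + 1) * (Mg / (n : ℝ) ^ 2) :=
    mul_le_mul (by linarith) h2 (abs_nonneg _) (by positivity)
  calc _ ≤ (|T| + 1) * (Mf / (n : ℝ) ^ 2) + (|T| + 1) * (Mg / (n : ℝ) ^ 2) := add_le_add h3 h4
    _ = (|T| + 1) * (Mf + Mg) / (n : ℝ) ^ 2 := by ring
    _ ≤ Cm / (n : ℝ) ^ 2 := by
        refine div_le_div_of_nonneg_right ?_ hn0.le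
        rw [hCm]
        nlinarith [abs_nonneg T]

theorem Fc_tot (S : CA.Dat) {f g : ℂ → ℝ} (hf : S.FF f) (hg : S.FF g) {n : ℕ} (hn : 0 < n) (t : ℝ)
    (s : ℂ) : ∑ z ∈ sites (S.D n), Fc f g n t s z = 0 := by
  have h1 := tot_cms S hf hn
  have h2 := tot_cms S hg hn
  unfold H167.tot at h1 h2
  unfold Fc
  rw [Finset.sum_add_distrib, ← Finset.mul_sum, ← Complex.ofReal_sum, ← Complex.ofReal_sum,
    ← Finset.mul_sum, h1, h2]
  simp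

/-- The radius of erosion. -/
theorem Fc_ev (S : CA.Dat) {f g : ℂ → ℝ} {κf κg κ0 κ : ℝ} (hκp : 0 < κ) (hκ : κ ≤ κ0 / 4)
    (hκ8 : κ0 ≤ 1 / 8) (hf : κ0 ≤ κf) (hg : κ0 ≤ κg)
    (hsf : ∀ᶠ n : ℕ in atTop, ∀ k : ℤ, 0 ≤ k → (k : ℝ) ≤ κf * n → ∀ z,
      CA.cms f (1 / n) z ≠ 0 → z ∈ sites (ero S.Q n k))
    (hsg : ∀ᶠ n : ℕ in atTop, ∀ k : ℤ, 0 ≤ k → (k : ℝ) ≤ κg * n → ∀ z,
      CA.cms g (1 / n) z ≠ 0 → z ∈ sites (ero S.Q n k)) :
    ∀ᶠ n : ℕ in atTop, 0 < n ∧ ∃ k : ℤ, 0 ≤ k ∧ 2 * k < n ∧ κ * n + 2 ≤ k ∧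
      2 * (κ * n) ≤ ((n : ℤ) - 1 - 2 * k : ℤ) ∧
      ∀ (t : ℝ) (s : ℂ), ∀ z ∉ sites (ero S.Q n k), Fc f g n t s z = 0 := by
  have hev : ∀ᶠ n : ℕ in atTop, 4 / κ + 16 ≤ (n : ℝ) :=
    tendsto_natCast_atTop_atTop.eventually_ge_atTop _
  filter_upwards [hsf, hsg, hev, eventually_gt_atTop 0] with n h1 h2 h3 h4
  have hn0 : (0 : ℝ) < n := by exact_mod_cast h4
  have hn4 : 4 ≤ κ * n := by
    have h5 : 0 ≤ (16 : ℝ) := by norm_num
    have : 4 / κ ≤ n := by linarith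
    rw [div_le_iff₀ hκp] at this; linarith
  have hn16 : (16 : ℝ) ≤ n := by
    have : 0 ≤ 4 / κ := by positivity
    linarith
  have hf1 := Int.floor_le (κ0 * n)
  have hf2 := Int.lt_floor_add_one (κ0 * n)
  have hk0 : 0 ≤ ⌊κ0 * n⌋ := Int.floor_nonneg.2 (mul_nonneg (by linarith) hn0.le)
  have hκn : 4 * (κ * n) ≤ κ0 * n := by nlinarith
  have hκn8 : κ0 * n ≤ n / 8 := by nlinarith
  refine ⟨h4, ⌊κ0 * n⌋, hk0, ?_, ?_, ?_, ?_⟩
  · have : (2 * ⌊κ0 * n⌋ : ℝ) < n := by linarith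
    exact_mod_cast this
  · linarith
  · push_cast
    linarith
  · intro t s z hz
    have e1 : CA.cms f (1 / n) z = 0 := by
      by_contra hne
      exact hz (h1 _ hk0 (hf1.trans (mul_le_mul_of_nonneg_right hf hn0.le)) z hne)
    have e2 : CA.cms g (1 / n) z = 0 := by
      by_contra hne
      exact hz (h2 _ hk0 (hf1.trans (mul_le_mul_of_nonneg_right hg hn0.le)) z hne)
    unfold Fc
    rw [e1, e2]
    simp

theorem box_ero (S : CA.Dat) {R1 : ℝ} {n : ℕ} (hRn : ∀ v ∈ S.D n, (nm v : ℝ) ≤ R1 * n) {k : ℤ}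
    {z : ℤ × ℤ} (hz : z ∈ sites (ero S.Q n k)) : (nm z : ℝ) ≤ R1 * n + 1 := by
  obtain ⟨v, hv, h1, h2⟩ := mem_sites.1 hz
  have h3 := hRn v (ero_sub hv)
  have h4 : nm z ≤ nm v + 1 := by
    have h5 : |v.1| ≤ nm v := le_max_left _ _
    have h6 : |v.2| ≤ nm v := le_max_right _ _
    rw [abs_le] at h5 h6
    rw [H45.nm_le, abs_le, abs_le]
    omega
  have h5 : (nm z : ℝ) ≤ nm v + 1 := by exact_mod_cast h4
  linarith

theorem imn_le {D : Finset (ℤ × ℤ)} {F : ℤ × ℤ → ℂ} {R1 Cm : ℝ} {n : ℕ} (hn : 0 < n) (hR : 0 ≤ R1)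
    (hC : 0 ≤ Cm) (hRn : ∀ v ∈ D, (nm v : ℝ) ≤ R1 * n) (hF : ∀ z, ‖F z‖ ≤ Cm / (n : ℝ) ^ 2) :
    imn D F ≤ (2 * R1 + 3) ^ 2 * Cm := by
  have hn1 : (1 : ℝ) ≤ n := by exact_mod_cast hn
  unfold imn
  have h1 : ∀ z ∈ sites D, |(F z).im| ≤ Cm / (n : ℝ) ^ 2 := fun z _ =>
    (Complex.abs_im_le_norm _).trans (hF z)
  have h2 := card_sites_le (D := D) (x := R1 * n) (by positivity) hRn
  calc ∑ z ∈ sites D, |(F z).im| ≤ ∑ _z ∈ sites D, Cm / (n : ℝ) ^ 2 := Finset.sum_le_sum h1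
    _ = ((sites D).card : ℝ) * (Cm / (n : ℝ) ^ 2) := by rw [Finset.sum_const, nsmul_eq_mul]
    _ ≤ ((2 * R1 + 3) * n) ^ 2 * (Cm / (n : ℝ) ^ 2) := by
        refine mul_le_mul_of_nonneg_right (h2.trans ?_) (by positivity)
        refine pow_le_pow_left₀ (by positivity) ?_ 2
        nlinarith
    _ = (2 * R1 + 3) ^ 2 * Cm := by field_simp

/-- One domain. -/
theorem prod_dat (S : CA.Dat) {F : ℤ × ℤ → ℂ} {κ R1 Cm : ℝ} {n : ℕ} {k : ℤ} (hn0 : 0 < n)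
    (hk0 : 0 ≤ k) (hk2 : 2 * k < n) (hκp : 0 < κ) (hκk : κ * n + 2 ≤ k)
    (hwd : 2 * (κ * n) ≤ ((n : ℤ) - 1 - 2 * k : ℤ)) (hoff : ∀ z ∉ sites (ero S.Q n k), F z = 0)
    (htot : ∑ z ∈ sites (S.D n), F z = 0) (hR1 : 0 < R1)
    (hRn : ∀ v ∈ S.D n, (nm v : ℝ) ≤ R1 * n) (hCm0 : 0 < Cm) (hκC : 2 * (Cm * κ ^ 2) ≤ 1 / 10)
    (hbd : ∀ z, ‖F z‖ ≤ Cm / (n : ℝ) ^ 2) (ω : Cfg) {P : Finset (Finset Ed)}
    (hP : P ⊆ pcs ω (S.D n)) :
    ∏ A ∈ P, ‖wpC (S.D n) A (massC (S.D n) (S.b n) F A)‖ ≤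
      2 ^ ((pcs ω (S.D n)) \ P).card *
        Ym (S.D n) (2 * Real.exp ((2 * R1 + 3) ^ 2 * Cm)) (κ * n) ((R1 + 2) * n) F ω := by
  have hn1 : (1 : ℝ) ≤ n := by exact_mod_cast hn0
  have hG := geo_ero S hn0 hk0 hk2 (δ := k - 1) (by linarith)
  have hC : Chc (S.D n) {z | z ∈ sites (ero S.Q n k)} (κ * n) ((R1 + 2) * n) F := by
    refine ⟨fun z hz => hoff z hz, Or.inl htot, ?_, ?_⟩
    · obtain ⟨z, hz, z', hz', h⟩ := wide_ero S hk0 hk2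
      refine ⟨z, hz, z', hz', hwd.trans ?_⟩
      exact_mod_cast h
    · intro z hz
      have := box_ero S hRn hz
      nlinarith
  refine prod_le hG (by positivity) (by linarith) hC ?_ ?_ hP
  · exact mul_le_mul_of_nonneg_left (Real.exp_le_exp.2 (imn_le hn0 hR1.le hCm0.le hRn hbd))
      (by norm_num)
  · intro ℓ h1 h2
    refine (norm_GC_le (by positivity) hbd h1 h2).trans ?_
    have e : Cm / (n : ℝ) ^ 2 * (κ * n) ^ 2 = Cm * κ ^ 2 := by field_simp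
    rw [e]
    exact hκC

/-- **Uniform bounds for the complex charges, with majorants.** For neutral test functions `f`, `g`
there are constants such that for all large `n`, `|t| ≤ T`, `‖s‖ ≤ T` every product of weights of pieces
is bounded by the majorant `Ym` and the moments of the majorant are bounded. -/
theorem maj_dat (S : CA.Dat) (f g : ℂ → ℝ) (hf : S.FF f) (hg : S.FF g) (T : ℝ) :
    ∃ κ M R : ℝ, 0 < κ ∧ 1 ≤ M ∧ 0 < R ∧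
    (∀ᶠ n : ℕ in atTop, ∀ t : ℝ, |t| ≤ T → ∀ s : ℂ, ‖s‖ ≤ T → ∀ ω,
      ∀ P ⊆ pcs ω (S.D n), ∏ A ∈ P, ‖wpC (S.D n) A (massC (S.D n) (S.b n) (Fc f g n t s) A)‖ ≤
        2 ^ ((pcs ω (S.D n)) \ P).card * Ym (S.D n) M (κ * n) (R * n) (Fc f g n t s) ω) ∧
    (∀ q : ℝ, 0 ≤ q → ∃ C : ℝ, 0 < C ∧ ∀ᶠ n : ℕ in atTop, ∀ t : ℝ, |t| ≤ T → ∀ s : ℂ, ‖s‖ ≤ T →
      ∫⁻ ω, ENNReal.ofReal (Ym (S.D n) M (κ * n) (R * n) (Fc f g n t s) ω ^ q) ∂μ ≤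
        ENNReal.ofReal C) := by
  obtain ⟨κf, hκf, hsf⟩ := exists_supp S hf.1
  obtain ⟨κg, hκg, hsg⟩ := exists_supp S hg.1
  obtain ⟨Mf, hMf0, hMf⟩ := exists_bd hf.1
  obtain ⟨Mg, hMg0, hMg⟩ := exists_bd hg.1
  obtain ⟨R1, hR1, hRn⟩ := exists_R S
  obtain ⟨Cm, hCm⟩ : ∃ Cm : ℝ, Cm = (|T| + 1) * (Mf + Mg + 1) := ⟨_, rfl⟩
  have hCm1 : 1 ≤ Cm := by rw [hCm]; nlinarith [abs_nonneg T]
  have hCm0 : 0 < Cm := by linarith
  obtain ⟨κ0, hκ0p, hκ0f, hκ0g, hκ08⟩ : ∃ κ0 : ℝ, 0 < κ0 ∧ κ0 ≤ κf ∧ κ0 ≤ κg ∧ κ0 ≤ 1 / 8 :=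
    ⟨min (min κf κg) (1 / 8), by positivity, (min_le_left _ _).trans (min_le_left _ _),
      (min_le_left _ _).trans (min_le_right _ _), min_le_right _ _⟩
  obtain ⟨κ, hκp, hκ1, hκ2⟩ : ∃ κ : ℝ, 0 < κ ∧ κ ≤ κ0 / 4 ∧ κ ≤ 1 / (20 * Cm) :=
    ⟨min (κ0 / 4) (1 / (20 * Cm)), by positivity, min_le_left _ _, min_le_right _ _⟩
  have hκ3 : κ ≤ 1 := by linarith
  have hκC : 2 * (Cm * κ ^ 2) ≤ 1 / 10 := by
    have h1 : Cm * κ ≤ 1 / 20 := by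
      have := mul_le_mul_of_nonneg_left hκ2 hCm0.le
      refine this.trans (le_of_eq ?_)
      field_simp
    have h2 : Cm * κ ^ 2 = Cm * κ * κ := by ring
    rw [h2]
    nlinarith
  have hM1 : 1 ≤ 2 * Real.exp ((2 * R1 + 3) ^ 2 * Cm) := by
    have := Real.add_one_le_exp ((2 * R1 + 3) ^ 2 * Cm)
    have : 0 ≤ (2 * R1 + 3) ^ 2 * Cm := by positivity
    linarith
  have hall := Fc_ev S hκp hκ1 hκ08 hκ0f hκ0g hsf hsg
  refine ⟨κ, 2 * Real.exp ((2 * R1 + 3) ^ 2 * Cm), R1 + 2, hκp, hM1, by linarith, ?_, ?_⟩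
  · filter_upwards [hall] with n hn t ht s hs ω P hP
    obtain ⟨hn0, k, hk0, hk2, hκk, hwd, hoff⟩ := hn
    exact prod_dat S hn0 hk0 hk2 hκp hκk hwd (hoff t s) (Fc_tot S hf hg hn0 t s) hR1 (hRn n) hCm0
      hκC (Fc_bd hMf0 hMg0 hMf hMg hCm hn0 ht hs) ω hP
  · intro q hq
    obtain ⟨C, ρ0, hC, hρ0, h⟩ := Ym_mom (R := R1 + 2) (Rd := R1 + 1) hCm0 hκp hκ3 (by linarith)
      (by linarith) (by linarith) hq hM1
    refine ⟨C, hC, ?_⟩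
    have hev2 : ∀ᶠ n : ℕ in atTop, ρ0 ≤ (n : ℝ) :=
      tendsto_natCast_atTop_atTop.eventually_ge_atTop _
    filter_upwards [hall, hev2] with n hn hρ t ht s hs
    obtain ⟨hn0, k, hk0, hk2, hκk, hwd, hoff⟩ := hn
    have hn1 : (1 : ℝ) ≤ n := by exact_mod_cast hn0
    have h1 := h n hρ (S.D n) (fun v hv => by have := hRn n v hv; nlinarith) (Fc f g n t s)
      (Fc_bd hMf0 hMg0 hMf hMg hCm hn0 ht hs) (sites (ero S.Q n k)) (hoff t s) (fun z hz => by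
        have := box_ero S (hRn n) hz
        nlinarith)
    have h2 : ∑ z ∈ sites (ero S.Q n k), (Fc f g n t s z).re = 0 := by
      rw [← Complex.re_sum]
      have h3 : ∑ z ∈ sites (ero S.Q n k), Fc f g n t s z = ∑ z ∈ sites (S.D n), Fc f g n t s z :=
        Finset.sum_subset (sites_mono ero_sub) fun z _ hz => hoff t s z hz
      rw [h3, Fc_tot S hf hg hn0 t s, Complex.zero_re]
    rw [h2, mul_zero, zero_mul, Real.exp_zero, mul_one] at h1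
    exact h1

/-- **(M2)** Uniform bounds for complex charges. -/
theorem i_m2 : CA.I_M2 := by
  intro S f g hf hg T
  obtain ⟨κ, M, R, hκ, hM, hR, h1, h2⟩ := maj_dat S f g hf hg T
  obtain ⟨C, hC, h3⟩ := h2 1 zero_le_one
  refine ⟨C, ?_⟩
  filter_upwards [h1, h3] with n h4 h5 t ht s hs
  have h6 := h5 t ht s hs
  simp only [Real.rpow_one] at h6
  have h7 : ∀ ω, ‖XDc (S.D n) (S.b n) (Fc f g n t s) ω‖ ≤
      Ym (S.D n) M (κ * n) (R * n) (Fc f g n t s) ω := by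
    intro ω
    have := h4 t ht s hs ω (pcs ω (S.D n)) (Finset.Subset.refl _)
    rw [Finset.sdiff_self, Finset.card_empty, pow_zero, one_mul] at this
    unfold XDc
    rwa [norm_prod]
  have h8 := Ym_int (S.D n) M (κ * n) (R * n) (Fc f g n t s) 1
  simp only [Real.rpow_one] at h8
  show ‖∫ ω, XDc (S.D n) (S.b n) (Fc f g n t s) ω ∂μ‖ ≤ C
  calc ‖∫ ω, XDc (S.D n) (S.b n) (Fc f g n t s) ω ∂μ‖
      ≤ ∫ ω, ‖XDc (S.D n) (S.b n) (Fc f g n t s) ω‖ ∂μ := norm_integral_le_integral_norm _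
    _ ≤ ∫ ω, Ym (S.D n) M (κ * n) (R * n) (Fc f g n t s) ω ∂μ := by
        refine integral_mono_of_nonneg (Eventually.of_forall fun _ => norm_nonneg _) h8
          (Eventually.of_forall h7)
    _ ≤ C := int_le_of_lint (fun ω => Ym_nonneg (by linarith) _ ω) (Ym_meas _ _ _ _ _) hC.le h6

end Vale.Agent.P167.H542
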