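import Vale.Agent.P167.BR.Defs
import Mathlib

/-!
# P167, block 2A-MOM, part 2: complex charges

`XDc D p f` is the functional `XD` of `BR/Defs` with a complex charge `f`. It depends on the squares
of `D` only, is holomorphic in `s` for the charge `f + s g`, and its expectation `VDc` has the
derivative `∑ A, mass g A * (derivative of the weight) * ∏ (other weights)`.
-/

open Finset MeasureTheory ProbabilityTheory

namespace Vale.Agent.P167.H542

open Vale.Agent.P167 Vale.Agent.P167.BR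

open Classical in
/-- The complex charge of the sites separated from `p` by the piece `A`. -/
noncomputable def massC (D : Finset (ℤ × ℤ)) (p : ℤ × ℤ) (f : ℤ × ℤ → ℂ) (A : Finset Ed) : ℂ :=
  ∑ z ∈ sites D, if Sep D A z p then f z else 0

/-- The weight of a loop. -/
noncomputable def wlC (t : ℂ) : ℂ :=
  Complex.cos ((Real.pi / 3 : ℝ) + t) / Complex.cos ((Real.pi / 3 : ℝ) : ℂ)

/-- The weight of a strand. -/
noncomputable def wsC (t : ℂ) : ℂ :=
  Complex.cos ((Real.pi / 6 : ℝ) + t) / Complex.cos ((Real.pi / 6 : ℝ) : ℂ)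

/-- Minus the derivative of the weight of a loop. -/
noncomputable def wlC' (t : ℂ) : ℂ :=
  Complex.sin ((Real.pi / 3 : ℝ) + t) / Complex.cos ((Real.pi / 3 : ℝ) : ℂ)

/-- Minus the derivative of the weight of a strand. -/
noncomputable def wsC' (t : ℂ) : ℂ :=
  Complex.sin ((Real.pi / 6 : ℝ) + t) / Complex.cos ((Real.pi / 6 : ℝ) : ℂ)

open Classical in
/-- The weight of the piece `A`. -/
noncomputable def wpC (D : Finset (ℤ × ℤ)) (A : Finset Ed) (t : ℂ) : ℂ :=
  if IsLp D A then wlC t else wsC t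

open Classical in
/-- Minus the derivative of the weight of the piece `A`. -/
noncomputable def wpC' (D : Finset (ℤ × ℤ)) (A : Finset Ed) (t : ℂ) : ℂ :=
  if IsLp D A then wlC' t else wsC' t

open Classical in
/-- The functional `XD` with a complex charge. -/
noncomputable def XDc (D : Finset (ℤ × ℤ)) (p : ℤ × ℤ) (f : ℤ × ℤ → ℂ) (ω : Cfg) : ℂ :=
  ∏ A ∈ pcs ω D, wpC D A (massC D p f A)

/-- The expectation. -/
noncomputable def VDc (D : Finset (ℤ × ℤ)) (p : ℤ × ℤ) (f : ℤ × ℤ → ℂ) : ℂ :=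
  ∫ ω, XDc D p f ω ∂μ

section Basic

variable {D : Finset (ℤ × ℤ)} {p : ℤ × ℤ}

theorem massC_ofReal (f : ℤ × ℤ → ℝ) (A : Finset Ed) :
    massC D p (fun z => (f z : ℂ)) A = (mass D p f A : ℂ) := by
  classical
  unfold massC mass
  push_cast
  exact Finset.sum_congr rfl fun z _ => by split_ifs <;> simp

theorem massC_re (f : ℤ × ℤ → ℂ) (A : Finset Ed) :
    (massC D p f A).re = mass D p (fun z => (f z).re) A := by
  classical
  unfold massC mass
  rw [Complex.re_sum]
  exact Finset.sum_congr rfl fun z _ => by split_ifs <;> simp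

theorem massC_im (f : ℤ × ℤ → ℂ) (A : Finset Ed) :
    (massC D p f A).im = mass D p (fun z => (f z).im) A := by
  classical
  unfold massC mass
  rw [Complex.im_sum]
  exact Finset.sum_congr rfl fun z _ => by split_ifs <;> simp

theorem massC_add_smul (f g : ℤ × ℤ → ℂ) (s : ℂ) (A : Finset Ed) :
    massC D p (fun z => f z + s * g z) A = massC D p f A + s * massC D p g A := by
  classical
  unfold massC
  rw [Finset.mul_sum, ← Finset.sum_add_distrib]
  exact Finset.sum_congr rfl fun z _ => by split_ifs <;> simp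

theorem wlC_ofReal (t : ℝ) : wlC (t : ℂ) = (wl t : ℂ) := by
  unfold wlC wl
  push_cast
  rfl

theorem wsC_ofReal (t : ℝ) : wsC (t : ℂ) = (ws t : ℂ) := by
  unfold wsC ws
  push_cast
  rfl

theorem wpC_ofReal (A : Finset Ed) (t : ℝ) : wpC D A (t : ℂ) = (wp D A t : ℂ) := by
  classical
  unfold wpC wp
  split_ifs
  · exact wlC_ofReal t
  · exact wsC_ofReal t

theorem XDc_ofReal (f : ℤ × ℤ → ℝ) (ω : Cfg) :
    XDc D p (fun z => (f z : ℂ)) ω = (XD D p f ω : ℂ) := by
  unfold XDc XD
  rw [Complex.ofReal_prod]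
  exact Finset.prod_congr rfl fun A _ => by rw [massC_ofReal, wpC_ofReal]

theorem VDc_ofReal (f : ℤ × ℤ → ℝ) : VDc D p (fun z => (f z : ℂ)) = (VD D p f : ℂ) := by
  unfold VDc VD
  rw [← integral_complex_ofReal]
  exact integral_congr_ae (Filter.Eventually.of_forall fun ω => XDc_ofReal f ω)

theorem hasDerivAt_wlC (t : ℂ) : HasDerivAt wlC (-wlC' t) t := by
  have h : HasDerivAt (fun t : ℂ => ((Real.pi / 3 : ℝ) : ℂ) + t) 1 t :=
    (hasDerivAt_id t).const_add _
  have := ((Complex.hasDerivAt_cos _).comp t h).div_const (Complex.cos ((Real.pi / 3 : ℝ) : ℂ))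
  refine this.congr_deriv ?_
  unfold wlC'
  ring

theorem hasDerivAt_wsC (t : ℂ) : HasDerivAt wsC (-wsC' t) t := by
  have h : HasDerivAt (fun t : ℂ => ((Real.pi / 6 : ℝ) : ℂ) + t) 1 t :=
    (hasDerivAt_id t).const_add _
  have := ((Complex.hasDerivAt_cos _).comp t h).div_const (Complex.cos ((Real.pi / 6 : ℝ) : ℂ))
  refine this.congr_deriv ?_
  unfold wsC'
  ring

theorem hasDerivAt_wpC (A : Finset Ed) (t : ℂ) : HasDerivAt (wpC D A) (-wpC' D A t) t := by
  classical
  by_cases h : IsLp D A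
  · have e1 : wpC D A = wlC := by ext t; simp [wpC, h]
    have e2 : wpC' D A t = wlC' t := by simp [wpC', h]
    rw [e1, e2]
    exact hasDerivAt_wlC t
  · have e1 : wpC D A = wsC := by ext t; simp [wpC, h]
    have e2 : wpC' D A t = wsC' t := by simp [wpC', h]
    rw [e1, e2]
    exact hasDerivAt_wsC t

open Classical in
/-- The derivative of `XDc (f + s g)` in `s`, with the opposite sign. -/
noncomputable def DXc (D : Finset (ℤ × ℤ)) (p : ℤ × ℤ) (f g : ℤ × ℤ → ℂ) (ω : Cfg) : ℂ :=
  ∑ A ∈ pcs ω D, massC D p g A * wpC' D A (massC D p f A) *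
    ∏ B ∈ (pcs ω D).erase A, wpC D B (massC D p f B)

theorem hasDerivAt_XDc (f g : ℤ × ℤ → ℂ) (ω : Cfg) (s : ℂ) :
    HasDerivAt (fun s : ℂ => XDc D p (fun z => f z + s * g z) ω)
      (-DXc D p (fun z => f z + s * g z) g ω) s := by
  classical
  have hA : ∀ A ∈ pcs ω D, HasDerivAt (fun s : ℂ => wpC D A (massC D p (fun z => f z + s * g z) A))
      (-wpC' D A (massC D p (fun z => f z + s * g z) A) * massC D p g A) s := by
    intro A _
    have h1 : HasDerivAt (fun s : ℂ => massC D p (fun z => f z + s * g z) A)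
        (massC D p g A) s := by
      simp only [massC_add_smul]
      simpa using ((hasDerivAt_id s).mul_const (massC D p g A)).const_add (massC D p f A)
    exact (hasDerivAt_wpC A _).comp s h1
  have h := HasDerivAt.fun_finsetProd hA
  unfold XDc
  refine h.congr_deriv ?_
  unfold DXc
  rw [← Finset.sum_neg_distrib]
  refine Finset.sum_congr rfl fun A _ => ?_
  rw [smul_eq_mul]
  ring

/-! ### Locality -/

theorem nx_congr {ω ω' : Cfg} {e : Ed} (h : ω (hdv e) = ω' (hdv e)) : nx ω e = nx ω' e := by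
  rcases e with v | v <;> simp only [nx, hdv] at h ⊢ <;> split_ifs at h ⊢ <;> simp_all

theorem Nxt_congr {ω ω' : Cfg} (h : ∀ v ∈ D, ω v = ω' v) : Nxt ω D = Nxt ω' D := by
  funext a b
  simp only [Nxt, eq_iff_iff]
  constructor
  · rintro ⟨h1, h2⟩
    exact ⟨h1, by rw [h2, nx_congr (h _ h1)]⟩
  · rintro ⟨h1, h2⟩
    exact ⟨h1, by rw [h2, nx_congr (h _ h1)]⟩

theorem pcs_congr {ω ω' : Cfg} (h : ∀ v ∈ D, ω v = ω' v) : pcs ω D = pcs ω' D := by
  unfold pcs piece
  rw [Nxt_congr h]

theorem XDc_congr {ω ω' : Cfg} (h : ∀ v ∈ D, ω v = ω' v) (f : ℤ × ℤ → ℂ) :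
    XDc D p f ω = XDc D p f ω' := by
  unfold XDc
  rw [pcs_congr h]

theorem XD_congr {ω ω' : Cfg} (h : ∀ v ∈ D, ω v = ω' v) (f : ℤ × ℤ → ℝ) :
    XD D p f ω = XD D p f ω' := by
  unfold XD
  rw [pcs_congr h]

theorem DXc_congr {ω ω' : Cfg} (h : ∀ v ∈ D, ω v = ω' v) (f g : ℤ × ℤ → ℂ) :
    DXc D p f g ω = DXc D p f g ω' := by
  unfold DXc
  rw [pcs_congr h]

/-! ### Functions of finitely many squares -/

/-- The configuration which is `c` on `D` and closed elsewhere. -/
def ext (D : Finset (ℤ × ℤ)) (c : D → Bool) : Cfg := fun v => if h : v ∈ D then c ⟨v, h⟩ else false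

theorem measurable_restr (D : Finset (ℤ × ℤ)) :
    Measurable (fun (ω : Cfg) (v : D) => ω v) :=
  measurable_pi_lambda _ fun v => measurable_pi_apply (v : ℤ × ℤ)

theorem measurable_of_local {E : Type*} [MeasurableSpace E] {F : Cfg → E}
    (hF : ∀ ω ω' : Cfg, (∀ v ∈ D, ω v = ω' v) → F ω = F ω') : Measurable F := by
  have e : F = (fun c : D → Bool => F (ext D c)) ∘ fun (ω : Cfg) (v : D) => ω v := by
    funext ω
    exact hF _ _ fun v hv => by simp [ext, hv]
  rw [e]
  exact (measurable_of_finite _).comp (measurable_restr D)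

theorem int_local {E : Type*} [NormedAddCommGroup E] [NormedSpace ℝ E] [CompleteSpace E]
    {F : Cfg → E} (hF : ∀ ω ω' : Cfg, (∀ v ∈ D, ω v = ω' v) → F ω = F ω') :
    ∫ ω, F ω ∂μ = ∑ c : D → Bool, (μ.map fun (ω : Cfg) (v : D) => ω v).real {c} • F (ext D c) := by
  have e : F = (fun c : D → Bool => F (ext D c)) ∘ fun (ω : Cfg) (v : D) => ω v := by
    funext ω
    exact hF _ _ fun v hv => by simp [ext, hv]
  have hp : IsProbabilityMeasure (μ.map fun (ω : Cfg) (v : D) => ω v) :=
    Measure.isProbabilityMeasure_map (measurable_restr D).aemeasurable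
  have h1 : ∫ ω, F ω ∂μ = ∫ c, F (ext D c) ∂(μ.map fun (ω : Cfg) (v : D) => ω v) := by
    rw [integral_map (measurable_restr D).aemeasurable]
    · exact integral_congr_ae (Filter.Eventually.of_forall fun ω => congrFun e ω)
    · exact (Integrable.of_finite (μ := μ.map fun (ω : Cfg) (v : D) => ω v)).aestronglyMeasurable
  rw [h1, integral_fintype Integrable.of_finite]

theorem integrable_local {E : Type*} [NormedAddCommGroup E]
    {F : Cfg → E} (hF : ∀ ω ω' : Cfg, (∀ v ∈ D, ω v = ω' v) → F ω = F ω') : Integrable F μ := by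
  have e : F = (fun c : D → Bool => F (ext D c)) ∘ fun (ω : Cfg) (v : D) => ω v := by
    funext ω
    exact hF _ _ fun v hv => by simp [ext, hv]
  have hp : IsProbabilityMeasure (μ.map fun (ω : Cfg) (v : D) => ω v) :=
    Measure.isProbabilityMeasure_map (measurable_restr D).aemeasurable
  rw [e]
  exact Integrable.comp_measurable (Integrable.of_finite (μ := μ.map fun (ω : Cfg) (v : D) => ω v))
    (measurable_restr D)

/-- `s ↦ V(f + s g)` is entire. -/
theorem hasDerivAt_VDc (f g : ℤ × ℤ → ℂ) (s : ℂ) :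
    HasDerivAt (fun s : ℂ => VDc D p (fun z => f z + s * g z))
      (-∫ ω, DXc D p (fun z => f z + s * g z) g ω ∂μ) s := by
  have e1 : (fun s : ℂ => VDc D p (fun z => f z + s * g z)) = fun s =>
      ∑ c : D → Bool, (μ.map fun (ω : Cfg) (v : D) => ω v).real {c} •
        XDc D p (fun z => f z + s * g z) (ext D c) := by
    funext s
    exact int_local fun ω ω' h => XDc_congr h _
  have e2 : -∫ ω, DXc D p (fun z => f z + s * g z) g ω ∂μ =
      ∑ c : D → Bool, (μ.map fun (ω : Cfg) (v : D) => ω v).real {c} •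
        (-DXc D p (fun z => f z + s * g z) g (ext D c)) := by
    rw [int_local fun ω ω' h => DXc_congr h _ _, ← Finset.sum_neg_distrib]
    exact Finset.sum_congr rfl fun c _ => by rw [smul_neg]
  rw [e1, e2]
  refine HasDerivAt.fun_sum fun c _ => ?_
  exact (hasDerivAt_XDc (D := D) (p := p) f g (ext D c) s).const_smul
    ((μ.map fun (ω : Cfg) (v : D) => ω v).real {c})

theorem differentiable_VDc (f g : ℤ × ℤ → ℂ) :
    Differentiable ℂ (fun s : ℂ => VDc D p (fun z => f z + s * g z)) := fun s =>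
  (hasDerivAt_VDc f g s).differentiableAt

/-! ### The potential of a site -/

open Classical in
/-- Minus the derivative of the weight of the piece `A`, for a real charge: `tan` times the weight. -/
noncomputable def wp' (D : Finset (ℤ × ℤ)) (A : Finset Ed) (t : ℝ) : ℝ :=
  if IsLp D A then Real.sin (Real.pi / 3 + t) / Real.cos (Real.pi / 3)
  else Real.sin (Real.pi / 6 + t) / Real.cos (Real.pi / 6)

open Classical in
/-- `X · T(z)`: the sum over the pieces which separate `z` from `p` of `tan (angle + mass)` times the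
product of all weights. -/
noncomputable def XT (D : Finset (ℤ × ℤ)) (p : ℤ × ℤ) (f : ℤ × ℤ → ℝ) (z : ℤ × ℤ) (ω : Cfg) : ℝ :=
  ∑ A ∈ (pcs ω D).filter fun A => Sep D A z p, wp' D A (mass D p f A) *
    ∏ B ∈ (pcs ω D).erase A, wp D B (mass D p f B)

theorem wpC'_ofReal (A : Finset Ed) (t : ℝ) : wpC' D A (t : ℂ) = (wp' D A t : ℂ) := by
  classical
  unfold wpC' wp' wlC' wsC'
  split_ifs <;> push_cast <;> rfl

theorem XT_congr {ω ω' : Cfg} (h : ∀ v ∈ D, ω v = ω' v) (f : ℤ × ℤ → ℝ) (z : ℤ × ℤ) :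
    XT D p f z ω = XT D p f z ω' := by
  unfold XT
  rw [pcs_congr h]

theorem DXc_eq (f g : ℤ × ℤ → ℝ) (ω : Cfg) :
    DXc D p (fun z => (f z : ℂ)) (fun z => (g z : ℂ)) ω =
      ((∑ z ∈ sites D, g z * XT D p f z ω : ℝ) : ℂ) := by
  classical
  have h1 : DXc D p (fun z => (f z : ℂ)) (fun z => (g z : ℂ)) ω =
      ((∑ A ∈ pcs ω D, mass D p g A * wp' D A (mass D p f A) *
        ∏ B ∈ (pcs ω D).erase A, wp D B (mass D p f B) : ℝ) : ℂ) := by
    unfold DXc
    push_cast
    refine Finset.sum_congr rfl fun A _ => ?_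
    rw [massC_ofReal, massC_ofReal, wpC'_ofReal]
    congr 1
    exact Finset.prod_congr rfl fun B _ => by rw [massC_ofReal, wpC_ofReal]
  rw [h1]
  congr 1
  unfold XT
  simp only [mul_sum, Finset.sum_filter]
  rw [Finset.sum_comm]
  refine Finset.sum_congr rfl fun A _ => ?_
  rw [mass, Finset.sum_mul, Finset.sum_mul]
  refine Finset.sum_congr rfl fun z _ => ?_
  split_ifs
  · ring
  · simp

/-- The derivative of `V(f + s g)` at `s = 0`. -/
theorem deriv_VDc_zero (f g : ℤ × ℤ → ℝ) :
    deriv (fun s : ℂ => VDc D p (fun z => (f z : ℂ) + s * (g z : ℂ))) 0 =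
      ((-∑ z ∈ sites D, g z * ∫ ω, XT D p f z ω ∂μ : ℝ) : ℂ) := by
  rw [(hasDerivAt_VDc (D := D) (p := p) (fun z => (f z : ℂ)) (fun z => (g z : ℂ)) 0).deriv]
  simp only [zero_mul, add_zero, DXc_eq]
  rw [integral_complex_ofReal, integral_finsetSum _ fun z _ =>
    (integrable_local fun ω ω' h => XT_congr h f z).const_mul _]
  push_cast
  simp only [integral_const_mul, Complex.ofReal_mul]

end Basic

end Vale.Agent.P167.H542
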