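import Vale.Agent.P167.H531.AsmDefs
import Vale.Agent.P167.H531.Walk
import Vale.Agent.P167.H450.ZoneIn
import Vale.Agent.P167.CL.CutW

/-!
# P167, block CONT-ASM: the outer walk between two odd sites of the polygon `PE`
-/

set_option autoImplicit false

namespace Vale.Agent.P167.H542

open Set Metric MeasureTheory
open Vale.Agent.P167 Vale.Agent.P167.E6 Vale.Agent.P167.E2 Vale.Agent.P167.H558
open Vale.Agent.P167.H531
open Vale.Agent.P167.H161 (zp Rd)
open Vale.Agent.P167.H756 (HConf Drv)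
open Vale.Agent.P164 (loewnerDomain Zf)
open Vale.Agent.P167.H192 (rf rf' ro')

variable {n m : ℕ}

/-- The squares of the outer walk. -/
def Wk (q : ZMod m → ℤ × ℤ) (PE : Finset (ℤ × ℤ)) (i i' : ℕ) : Set (ℤ × ℤ) :=
  {v | v ∉ PE ∧ ∃ t : ℕ, i < t ∧ t < i' ∧ ((q (t : ZMod m)).1 + (q (t : ZMod m)).2) % 2 = 0 ∧
    Cor (q (t : ZMod m)) v}

theorem outer_odd {q : ZMod m → ℤ × ℤ} {PE : Finset (ℤ × ℤ)} (hq : IsPolygon q)
    (hPE : Encloses q PE) {i k : ℕ} (hi : ((q (i : ZMod m)).1 + (q (i : ZMod m)).2) % 2 = 1) :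
    Cn (StM 1) (Wk q PE i (i + 2 * k)) (q (i : ZMod m)) (q ((i + 2 * k : ℕ) : ZMod m)) ∧
      ((q ((i + 2 * k : ℕ) : ZMod m)).1 + (q ((i + 2 * k : ℕ) : ZMod m)).2) % 2 = 1 := by
  induction k with
  | zero => exact ⟨Cn.refl _ _, hi⟩
  | succ k ih =>
    obtain ⟨h1, h2⟩ := ih
    set t : ZMod m := ((i + 2 * k : ℕ) : ZMod m) with ht
    have e1 : ((i + 2 * (k + 1) : ℕ) : ZMod m) = t + 1 + 1 := by
      rw [ht]
      push_cast
      ring
    have p1 := par_step hq t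
    have p2 := par_step hq (t + 1)
    have h3 := outer_step hq hPE (t + 1) (c := 1) (by omega) (Or.inr rfl)
    rw [add_sub_cancel_right] at h3
    rw [e1]
    refine ⟨(h1.mono ?_).trans (h3.mono ?_), by omega⟩
    · rintro v ⟨hv, s, hs1, hs2, hs3, hs4⟩
      exact ⟨hv, s, hs1, by omega, hs3, hs4⟩
    · rintro v ⟨hv, hs3⟩
      have e2 : ((i + 2 * k + 1 : ℕ) : ZMod m) = t + 1 := by
        rw [ht]
        push_cast
        ring
      refine ⟨hv, i + 2 * k + 1, by omega, by omega, ?_, ?_⟩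
      · rw [e2]; omega
      · rw [e2]; exact hs3

theorem crn_of_cor {w v : ℤ × ℤ} (h : Cor w v) : CL.Crn v w := by
  obtain ⟨r, rfl⟩ := h
  unfold CL.Crn
  rcases H192.fin4_cases r with rfl | rfl | rfl | rfl
  · rw [face0]; omega
  · rw [face1]; dsimp only; omega
  · rw [face2]; dsimp only; omega
  · rw [face3]; dsimp only; omega

theorem ro_ro' {s : ℤ × ℤ} (h : (s.1 + s.2) % 2 = 0) : H192.ro (ro' s) = s := by
  ext <;> simp only [H192.ro, ro'] <;> omega

/-- The faces of the odd corners of a square with the even corner `ro a` are faces around `a`. -/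
theorem rf'_face {v a x y : ℤ × ℤ} (hv : CL.Crn v (H192.ro a)) (h : StM 1 v x y) :
    ∃ r, rf' x = face a r := by
  obtain ⟨h1, h2, h3, h4⟩ := h
  unfold CL.Crn at hv
  have e1 : v.1 = min x.1 y.1 := by rw [h1]
  have e2 : v.2 = min x.2 y.2 := by rw [h1]
  simp only [H192.ro] at hv
  have hx : (rf' x).1 = a.1 ∨ (rf' x).1 = a.1 - 1 := by simp only [rf']; omega
  have hy : (rf' x).2 = a.2 ∨ (rf' x).2 = a.2 - 1 := by simp only [rf']; omega
  rcases hx with hx | hx <;> rcases hy with hy | hy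
  · exact ⟨0, by rw [face0]; exact Prod.ext hx hy⟩
  · exact ⟨3, by rw [face3]; exact Prod.ext hx hy⟩
  · exact ⟨1, by rw [face1]; exact Prod.ext hx hy⟩
  · exact ⟨2, by rw [face2]; exact Prod.ext hx hy⟩

/-- A vertex with a margin is an inner vertex. -/
theorem inn_margin {δ : ℝ} (hδ : 0 < δ) {S : Finset (ℤ × ℤ)} {a : ℤ × ℤ}
    (h : ball (zp δ (H192.ro a)) (8 * δ) ⊆ Om δ S) : CL.CW.Inn S a := by
  intro r
  refine CL.CW.face_of_centre hδ (h ?_)
  rw [mem_ball, H161.zp_ro, dist_eq_norm, ← mul_sub, norm_mul, Complex.norm_real,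
    Real.norm_of_nonneg hδ.le]
  have h5 : ‖(⟨((face a r).1 : ℝ) + 1 / 2, ((face a r).2 : ℝ) + 1 / 2⟩ : ℂ) - pt a‖ ≤ 1 := by
    refine (Complex.norm_le_abs_re_add_abs_im _).trans ?_
    rw [Complex.sub_re, Complex.sub_im, pt_re, pt_im]
    dsimp only
    rcases H192.fin4_cases r with rfl | rfl | rfl | rfl
    · rw [face0]
      rw [show (a.1 : ℝ) + 1 / 2 - a.1 = 1 / 2 by ring, show (a.2 : ℝ) + 1 / 2 - a.2 = 1 / 2 by ring]
      norm_num
    · rw [face1]
      push_cast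
      rw [show (a.1 : ℝ) - 1 + 1 / 2 - a.1 = -(1 / 2) by ring,
        show (a.2 : ℝ) + 1 / 2 - a.2 = 1 / 2 by ring]
      norm_num
    · rw [face2]
      push_cast
      rw [show (a.1 : ℝ) - 1 + 1 / 2 - a.1 = -(1 / 2) by ring,
        show (a.2 : ℝ) - 1 + 1 / 2 - a.2 = -(1 / 2) by ring]
      norm_num
    · rw [face3]
      push_cast
      rw [show (a.1 : ℝ) + 1 / 2 - a.1 = 1 / 2 by ring,
        show (a.2 : ℝ) - 1 + 1 / 2 - a.2 = -(1 / 2) by ring]
      norm_num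
  nlinarith

/-- The opposite corner. -/
theorem exists_StM {v s : ℤ × ℤ} (h : CL.Crn v s) {c : ℤ} (hc : (s.1 + s.2) % 2 = c) :
    ∃ y, StM c v s y := by
  refine ⟨(2 * v.1 + 1 - s.1, 2 * v.2 + 1 - s.2), ?_, ?_, ?_, hc⟩
  · unfold CL.Crn at h
    refine Prod.ext ?_ ?_ <;> dsimp only <;> omega
  · unfold CL.Crn at h; dsimp only; omega
  · unfold CL.Crn at h; dsimp only; omega

/-- **[WALK]** -/
theorem walk : S_walk := by
  intro n m p k S A δ j ψ W t T R Rd' cd Y q PE Kc Bb B a l jf ε h u rc cb κ ω₀ hj hD hC hP hL hF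
    i c hi hic hl0 hlm hfoot
  have hδ := hD.hδ
  obtain ⟨h1, -⟩ := outer_odd (k := c) hP.hq hP.hPE hi
  have hm2 : 2 < m := hP.hq.1
  have : NeZero m := ⟨by omega⟩
  -- the sites in between
  have hsite : ∀ s : ZMod m, ((q s).1 + (q s).2) % 2 = 0 →
      ball (zp δ (q s)) (8 * δ) ⊆ Om δ S ∧ CL.CW.Inn S (ro' (q s)) := by
    intro s hs
    have h2 := H450.margin_site hδ.le hP s
    have h3 : ball (zp δ (q s)) (8 * δ) ⊆ Om δ S := by
      refine h2.trans ?_
      rw [hD.dom]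
      exact sdiff_subset
    refine ⟨h3, inn_margin hδ ?_⟩
    rwa [ro_ro' hs]
  have hcorner : ∀ (s : ZMod m) (v : ℤ × ℤ), ((q s).1 + (q s).2) % 2 = 0 → Cor (q s) v →
      CL.Crn v (H192.ro (ro' (q s))) := by
    intro s v hs hv
    rw [ro_ro' hs]
    exact crn_of_cor hv
  have h2 : Cn (StQ p S) (Wk q PE i (i + 2 * c)) (dmo n (q (i : ZMod m)))
      (dmo n (q ((i + 2 * c : ℕ) : ZMod m))) := by
    refine cn_dmo hD.hp hD.hS ?_ h1
    rintro v ⟨-, s, -, -, hs, hcor⟩ x y hxy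
    obtain ⟨r, hr⟩ := rf'_face (hcorner _ v hs hcor) hxy
    rw [hr]
    exact (hsite _ hs).2 r
  refine h2.mono ?_
  rintro v ⟨hvPE, s, hs1, hs2, hs, hcor⟩
  have hdq : v ∈ H192.dq p k S := (hsite _ hs).2.mem_dq hD.hp hD.hS (hcorner _ v hs hcor)
  have hzv : zp δ (q (s : ZMod m)) ∈ Dsq δ v := by
    obtain ⟨r, rfl⟩ := hcor
    exact H450.face_Dsq hδ.le _ _
  have hrd : v ∉ Rd p k S A j := fun hv =>
    H450.not_read hD (H450.margin_site hδ.le hP _) hv hzv
  by_cases hK : v ∈ Kc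
  · right
    have hκ : κ v = false := by
      by_contra hcon
      rw [Bool.not_eq_false] at hcon
      obtain ⟨y, hy⟩ := exists_StM (crn_of_cor hcor) hs
      obtain ⟨v0, hv0, r0, hr0⟩ := H450.site_mem hP.hq hP.hPE (s : ZMod m)
      obtain ⟨y0, hy0⟩ := exists_StM (crn_of_cor ⟨r0, hr0⟩) hs
      have h5 := hL.isoO v hK hvPE hcon _ _ hy ⟨v0, hv0, y0, (isSt_M 0).symm _ _ _ hy0⟩
      have h6 : (s : ZMod m) = (l : ZMod m) := hP.hq.2.1 h5
      have h7 : s = l := by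
        have h8 := congrArg ZMod.val h6
        rw [ZMod.val_natCast, ZMod.val_natCast, Nat.mod_eq_of_lt (by omega),
          Nat.mod_eq_of_lt hlm] at h8
        exact h8
      omega
    refine ⟨?_, Finset.mem_coe.2 ?_, Finset.mem_coe.2 hdq⟩
    · show ¬ (ω₀ v = true)
      rw [hF.kc v hK, hκ]
      simp
    · unfold KK
      rw [Finset.mem_union, Finset.mem_union]
      exact Or.inl (Or.inr hK)
  · left
    refine ⟨⟨hdq, ?_, hvPE⟩, s, hs1, hs2, hs, ?_⟩
    · unfold KK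
      rw [Finset.mem_union, Finset.mem_union]
      rintro ((h9 | h9) | h9)
      · exact hrd h9
      · exact hK h9
      · exact hvPE (hL.hBb h9)
    · exact crn_of_cor hcor

end Vale.Agent.P167.H542
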