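import Vale.Agent.P153.R2.TOP.Sep

/-!
# P167, block E0b, part 1: logarithms along closed curves

* `log_ne_of_homeo`: a continuous logarithm of `Ψ (exp (i t)) - Ψ 0` along `[0, 2 π]`, for a
  homeomorphism `Ψ` of the plane, does not close up (the winding number is not zero).
* `log_telescope`: the increment of a continuous logarithm along a curve which is approximated by a
  closed polygon is the sum of the principal logarithms of the quotients of the vertices.
-/

open Set Topology P153.TOP

namespace Vale.Agent.P167.H542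

/-- The curve `Ψ (exp (i t))` winds around `Ψ 0`. -/
theorem log_ne_of_homeo (Ψ : ℂ ≃ₜ ℂ) (L : ℝ → ℂ) (hL : ContinuousOn L (Icc 0 (2 * Real.pi)))
    (hexp : ∀ t ∈ Icc (0 : ℝ) (2 * Real.pi),
      Complex.exp (L t) = Ψ (circleMap 0 1 t) - Ψ 0) :
    L (2 * Real.pi) ≠ L 0 := by
  intro hper
  have hpi := Real.pi_pos
  -- the parametrisation of the circle
  let q : Icc (0 : ℝ) (2 * Real.pi) → Metric.sphere (0 : ℂ) 1 := fun t =>
    ⟨circleMap 0 1 t, circleMap_mem_sphere 0 zero_le_one t⟩
  have hqc : Continuous q :=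
    ((continuous_circleMap 0 1).comp continuous_subtype_val).subtype_mk _
  have hqs : Function.Surjective q := by
    rintro ⟨z, hz⟩
    have hz1 : ‖z‖ = 1 := by simpa using hz
    rcases le_or_gt 0 (Complex.arg z) with h | h
    · refine ⟨⟨Complex.arg z, h, by linarith [Complex.arg_le_pi z]⟩, ?_⟩
      apply Subtype.ext
      show circleMap 0 1 (Complex.arg z) = z
      rw [circleMap_zero]
      have := Complex.norm_mul_exp_arg_mul_I z
      rw [hz1] at this
      exact this
    · refine ⟨⟨Complex.arg z + 2 * Real.pi, by linarith [Complex.neg_pi_lt_arg z], by linarith⟩, ?_⟩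
      apply Subtype.ext
      show circleMap 0 1 (Complex.arg z + 2 * Real.pi) = z
      rw [periodic_circleMap 0 1, circleMap_zero]
      have := Complex.norm_mul_exp_arg_mul_I z
      rw [hz1] at this
      exact this
  let qc : C(Icc (0 : ℝ) (2 * Real.pi), Metric.sphere (0 : ℂ) 1) := ⟨q, hqc⟩
  have hqq : Topology.IsQuotientMap qc := hqc.isClosedMap.isQuotientMap hqc hqs
  let M : C(Icc (0 : ℝ) (2 * Real.pi), ℂ) := ⟨fun t => L t, continuousOn_iff_continuous_domRestrict.1 hL⟩
  have hfac : Function.FactorsThrough M qc := by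
    have key : ∀ s t : ℝ, s ∈ Icc (0 : ℝ) (2 * Real.pi) → t ∈ Icc (0 : ℝ) (2 * Real.pi) →
        s ≤ t → circleMap 0 1 s = circleMap 0 1 t → L s = L t := by
      intro s t hs ht hst h
      rw [circleMap_zero, circleMap_zero] at h
      have h1 : Complex.exp (s * Complex.I) = Complex.exp (t * Complex.I) := by
        simpa using h
      obtain ⟨n, hn⟩ := Complex.exp_eq_exp_iff_exists_int.1 h1
      have h2 : s = t + n * (2 * Real.pi) := by
        have h3 : ((s : ℂ) - t - n * (2 * Real.pi)) * Complex.I = 0 := by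
          linear_combination hn
        rcases mul_eq_zero.1 h3 with h3 | h3
        · have h4 : ((s - t - n * (2 * Real.pi) : ℝ) : ℂ) = 0 := by push_cast; exact h3
          have h5 : s - t - n * (2 * Real.pi) = 0 := by exact_mod_cast h4
          linarith
        · exact absurd h3 Complex.I_ne_zero
      have hn0 : (n : ℝ) ≤ 0 := by
        by_contra hc
        push Not at hc
        have : 0 < (n : ℝ) * (2 * Real.pi) := by positivity
        linarith
      have hn1 : (-1 : ℝ) ≤ n := by
        by_contra hc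
        push Not at hc
        have hs0 := hs.1
        have ht1 := ht.2
        nlinarith
      have hn0' : n ≤ 0 := by exact_mod_cast hn0
      have hn1' : -1 ≤ n := by exact_mod_cast hn1
      have hn2 : n = 0 ∨ n = -1 := by omega
      rcases hn2 with rfl | rfl
      · simp at h2
        rw [h2]
      · push_cast at h2
        have hs0 := hs.1
        have ht1 := ht.2
        have e1 : s = 0 := by linarith
        have e2 : t = 2 * Real.pi := by linarith
        rw [e1, e2, hper]
    intro s t hst
    have h : circleMap 0 1 (s : ℝ) = circleMap 0 1 (t : ℝ) := congrArg Subtype.val hst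
    rcases le_total (s : ℝ) t with h1 | h1
    · exact key s t s.2 t.2 h1 h
    · exact (key t s t.2 s.2 h1 h.symm).symm
  let M' : C(Metric.sphere (0 : ℂ) 1, ℂ) := hqq.lift M hfac
  have hM' : ∀ t : Icc (0 : ℝ) (2 * Real.pi), M' (q t) = L t := fun t =>
    congrArg (fun f : C(Icc (0 : ℝ) (2 * Real.pi), ℂ) => f t) (hqq.lift_comp M hfac)
  obtain ⟨H, hH⟩ := ContinuousMap.exists_restrict_eq (Metric.isClosed_sphere) M'
  have hH' : ∀ z (hz : z ∈ Metric.sphere (0 : ℂ) 1), Complex.exp (H z) = Ψ z - Ψ 0 := by
    intro z hz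
    obtain ⟨t, ht⟩ := hqs ⟨z, hz⟩
    have h1 : H z = M' ⟨z, hz⟩ := by
      rw [← hH]; rfl
    have h2 : circleMap 0 1 (t : ℝ) = z := congrArg Subtype.val ht
    rw [h1, ← ht, hM', hexp _ t.2, h2]
  -- the retraction
  have hG : Continuous fun z => Ψ.symm (Complex.exp (H z) + Ψ 0) :=
    Ψ.symm.continuous.comp ((Complex.continuous_exp.comp H.continuous).add continuous_const)
  have hG0 : ∀ z, Ψ.symm (Complex.exp (H z) + Ψ 0) ≠ 0 := by
    intro z h
    have h1 : Complex.exp (H z) + Ψ 0 = Ψ 0 := by
      rw [← Ψ.apply_symm_apply (Complex.exp (H z) + Ψ 0), h]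
    simp at h1
  have h1 : LogOn (univ : Set ℂ) fun z => Ψ.symm (Complex.exp (H z) + Ψ 0) :=
    hasLogOn_of_convex convex_univ _ hG.continuousOn fun z _ => hG0 z
  refine not_logOn_circle (p := 0) (R := 1) one_pos (n := 1) one_ne_zero
    ((h1.mono (subset_univ _)).congr fun z hz => ?_)
  rw [hH' z hz]
  simp

/-! ### Small quotients -/

theorem re_pos_of_norm_sub_one_lt {x : ℂ} (h : ‖x - 1‖ < 1) : 0 < x.re := by
  have h1 := Complex.abs_re_le_norm (x - 1)
  rw [Complex.sub_re, Complex.one_re, abs_le] at h1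
  linarith [h1.1]

theorem log_mul_of_re_pos {x y : ℂ} (hx : 0 < x.re) (hy : 0 < y.re) :
    Complex.log (x * y) = Complex.log x + Complex.log y := by
  have hx0 : x ≠ 0 := fun h => by simp [h] at hx
  have hy0 : y ≠ 0 := fun h => by simp [h] at hy
  have h1 := Complex.abs_arg_lt_pi_div_two_iff.2 (Or.inl hx)
  have h2 := Complex.abs_arg_lt_pi_div_two_iff.2 (Or.inl hy)
  rw [abs_lt] at h1 h2
  refine (Complex.log_mul_eq_add_log_iff hx0 hy0).2 ⟨?_, ?_⟩ <;> linarith

theorem log_inv_of_re_pos {x : ℂ} (hx : 0 < x.re) : Complex.log x⁻¹ = -Complex.log x := by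
  refine Complex.log_inv x fun h => ?_
  have h1 := Complex.abs_arg_lt_pi_div_two_iff.2 (Or.inl hx)
  rw [h, abs_of_pos Real.pi_pos] at h1
  linarith [Real.pi_pos]

/-- Two continuous logarithms of a curve which stays close to `c`. -/
theorem log_step {f L : ℝ → ℂ} {a b : ℝ} (hab : a ≤ b) (hL : ContinuousOn L (Icc a b))
    (hexp : ∀ t ∈ Icc a b, Complex.exp (L t) = f t) {c : ℂ} (hc : c ≠ 0)
    (hclose : ∀ t ∈ Icc a b, ‖f t / c - 1‖ < 1) :
    L b - L a = Complex.log (f b / c) - Complex.log (f a / c) := by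
  have hf : ContinuousOn f (Icc a b) :=
    (Complex.continuous_exp.comp_continuousOn hL).congr fun t ht => (hexp t ht).symm
  have hslit : ∀ t ∈ Icc a b, f t / c ∈ Complex.slitPlane := fun t ht =>
    Or.inl (re_pos_of_norm_sub_one_lt (hclose t ht))
  have hG : ContinuousOn (fun t => Complex.log c + Complex.log (f t / c)) (Icc a b) :=
    continuousOn_const.add ((hf.div_const c).clog hslit)
  have h := log_diff_const isPreconnected_Icc hL hG (fun t ht => by
    rw [hexp t ht, Complex.exp_add, Complex.exp_log hc,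
      Complex.exp_log (Complex.slitPlane_ne_zero (hslit t ht))]
    field_simp) (left_mem_Icc.2 hab) (right_mem_Icc.2 hab)
  linear_combination -h

/-- The increment of the logarithm along a closed curve which is approximated by a polygon. -/
theorem log_telescope {f L : ℝ → ℂ} {N : ℕ} (s : ℕ → ℝ) (hs : Monotone s) (P : ℕ → ℂ)
    (hL : ContinuousOn L (Icc (s 0) (s N)))
    (hexp : ∀ t ∈ Icc (s 0) (s N), Complex.exp (L t) = f t)
    (hP : ∀ i ≤ N, P i ≠ 0) (hPN : P N = P 0) (hfN : f (s N) = f (s 0))
    (hclose : ∀ i < N, ∀ t ∈ Icc (s i) (s (i + 1)), ‖f t / P i - 1‖ < 1)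
    (hstep : ∀ i < N, ‖P (i + 1) / P i - 1‖ < 1) :
    L (s N) - L (s 0) = ∑ i ∈ Finset.range N, Complex.log (P (i + 1) / P i) := by
  -- closeness at the vertices
  have hv : ∀ i ≤ N, ‖f (s i) / P i - 1‖ < 1 ∨ N = 0 := by
    intro i hi
    rcases Nat.eq_zero_or_pos N with h0 | h0
    · exact Or.inr h0
    · left
      rcases hi.lt_or_eq with h | h
      · exact hclose i h _ (left_mem_Icc.2 (hs (Nat.le_succ i)))
      · rw [h, hPN, hfN]
        exact hclose 0 h0 _ (left_mem_Icc.2 (hs (Nat.zero_le 1)))
  have main : ∀ n ≤ N, L (s n) - L (s 0) =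
      Complex.log (f (s n) / P n) - Complex.log (f (s 0) / P 0) +
        ∑ i ∈ Finset.range n, Complex.log (P (i + 1) / P i) := by
    intro n
    induction n with
    | zero => intro _; simp
    | succ n ih =>
      intro hn
      have hnN : n < N := hn
      have h1 := ih hnN.le
      have hsub : Icc (s n) (s (n + 1)) ⊆ Icc (s 0) (s N) :=
        Icc_subset_Icc (hs (Nat.zero_le n)) (hs hn)
      have h2 := log_step (hs (Nat.le_succ n)) (hL.mono hsub) (fun t ht => hexp t (hsub ht))
        (hP n hnN.le) (hclose n hnN)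
      have hv1 : ‖f (s (n + 1)) / P (n + 1) - 1‖ < 1 := (hv (n + 1) hn).resolve_right (by omega)
      have h3 : Complex.log (f (s (n + 1)) / P n) =
          Complex.log (f (s (n + 1)) / P (n + 1)) + Complex.log (P (n + 1) / P n) := by
        rw [← log_mul_of_re_pos (re_pos_of_norm_sub_one_lt hv1)
          (re_pos_of_norm_sub_one_lt (hstep n hnN))]
        congr 1
        have := hP (n + 1) hn
        have := hP n hnN.le
        field_simp
      rw [Finset.sum_range_succ]
      linear_combination h1 + h2 + h3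
  have h := main N le_rfl
  rw [hPN, hfN] at h
  rw [h]
  ring

end Vale.Agent.P167.H542
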