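import Vale.Agent.P167.H542.Dat
import Vale.Agent.P167.H167.IEQ

/-!
# P167, block 2A-MOM: dominated fourth moments (`H167.Mom`) and the input `I_EQ` of the core
-/

open Finset MeasureTheory ProbabilityTheory Filter Topology

namespace Vale.Agent.P167.H542

open Vale.Agent.P167 Vale.Agent.P167.BR Relation
open Vale.Agent.P167.H167 (Fd Mom)

theorem Fc_real (f : ℂ → ℝ) (n : ℕ) :
    Fc f f n 1 0 = fun z => ((CA.cms f (1 / n) z : ℝ) : ℂ) := by
  funext z
  simp [Fc]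

/-- **[MOM4]** -/
theorem mom4 (S : CA.Dat) (f : ℂ → ℝ) (hf : S.FF f) : ∃ B : ℝ, ∀ᶠ n : ℕ in atTop,
    Mom (S.D n) (S.b n) (CA.cms f (1 / n)) B := by
  obtain ⟨κ, M, R, hκ, hM, hR, h1, h2⟩ := maj_dat S f f hf hf 1
  obtain ⟨C, hC, h3⟩ := h2 4 (by norm_num)
  refine ⟨2 * (max C 1), ?_⟩
  filter_upwards [h1, h3] with n h4 h5
  have h4' := h4 1 (by simp) 0 (by simp)
  have h5' := h5 1 (by simp) 0 (by simp)
  rw [Fc_real] at h4' h5'
  set F : ℤ × ℤ → ℂ := fun z => ((CA.cms f (1 / n) z : ℝ) : ℂ) with hF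
  obtain ⟨G, hG⟩ := Ym_loc (S.D n) M (κ * n) (R * n) F
  have hY0 : ∀ ω, 0 ≤ Ym (S.D n) M (κ * n) (R * n) F ω := fun ω => Ym_nonneg (by linarith) F ω
  have key : ∀ ω, ∀ P ⊆ pcs ω (S.D n), |∏ A ∈ P, wp (S.D n) A (mass (S.D n) (S.b n)
      (CA.cms f (1 / n)) A)| ≤ 2 ^ ((pcs ω (S.D n)) \ P).card *
        Ym (S.D n) M (κ * n) (R * n) F ω := by
    intro ω P hP
    refine le_trans (le_of_eq ?_) (h4' ω P hP)
    rw [Finset.abs_prod]
    refine Finset.prod_congr rfl fun A _ => ?_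
    rw [hF, massC_ofReal, wpC_ofReal, Complex.norm_real, Real.norm_eq_abs]
  refine ⟨fun ω => 2 * Ym (S.D n) M (κ * n) (R * n) F ω, ?_, ?_, ?_, ?_⟩
  · refine Fd.of_loc (F := G) fun ω ω' hw => ?_
    rw [hG ω ω' fun v hv => hw v (Finset.mem_coe.2 hv)]
  · intro ω
    have := key ω (pcs ω (S.D n)) (Finset.Subset.refl _)
    rw [Finset.sdiff_self, Finset.card_empty, pow_zero, one_mul] at this
    unfold XD
    linarith [hY0 ω]
  · intro ω A hA
    have := key ω ((pcs ω (S.D n)).erase A) (Finset.erase_subset _ _)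
    have h6 : (pcs ω (S.D n) \ (pcs ω (S.D n)).erase A).card = 1 := by
      rw [Finset.sdiff_erase_self hA, Finset.card_singleton]
    rw [h6, pow_one] at this
    exact this
  · have h7 : ∫ ω, Ym (S.D n) M (κ * n) (R * n) F ω ^ (4 : ℝ) ∂μ ≤ C :=
      int_le_of_lint (fun ω => Real.rpow_nonneg (hY0 ω) _)
        ((Ym_meas _ _ _ _ _).pow_const _) hC.le h5'
    have h8 : ∀ ω, (2 * Ym (S.D n) M (κ * n) (R * n) F ω) ^ 4 =
        16 * Ym (S.D n) M (κ * n) (R * n) F ω ^ (4 : ℝ) := by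
      intro ω
      rw [mul_pow, show (4 : ℝ) = ((4 : ℕ) : ℝ) by norm_num, Real.rpow_natCast]
      norm_num
    simp only [h8]
    rw [integral_const_mul]
    have h9 : C ≤ max C 1 := le_max_left _ _
    have h10 : (1 : ℝ) ≤ max C 1 := le_max_right _ _
    calc 16 * ∫ ω, Ym (S.D n) M (κ * n) (R * n) F ω ^ (4 : ℝ) ∂μ ≤ 16 * C := by linarith
      _ ≤ 16 * (max C 1) ^ 4 := by
          have : max C 1 ≤ (max C 1) ^ 4 := le_self_pow₀ h10 (by norm_num)
          linarith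
      _ = (2 * max C 1) ^ 4 := by ring

/-- **The input `I_EQ` of the core.** -/
theorem i_eq0 : CA.I_EQ := H167.i_eq mom4

end Vale.Agent.P167.H542
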