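import Vale.Agent.P167.H542.Pc2

/-!
# P167, block 2A-MOM: uniform moments of the functional `XDc`
-/

open Finset MeasureTheory ProbabilityTheory

namespace Vale.Agent.P167.H542

open Vale.Agent.P167 Vale.Agent.P167.BR
open Vale.Agent.P167.H562 (Em Em_mono)
open Vale.Agent.P167.H45 (vs_nonempty S_crossL Em_add Em_add_const box_fin meas_locfun)

theorem crossL0 : S_crossL := H166.crossL s_nx s_jump s_step s_two

/-- The majorant of the functional. -/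
noncomputable def Ym (D : Finset (ℤ × ℤ)) (M d B : ℝ) (f : ℤ × ℤ → ℂ) (ω : Cfg) : ℝ :=
  M ^ (mac d D ω).card * ∏ ℓ ∈ sb B d ω, ‖wlC (GC f ℓ)‖

theorem Ym_nonneg {D : Finset (ℤ × ℤ)} {M d B : ℝ} (hM : 0 ≤ M) (f : ℤ × ℤ → ℂ) (ω : Cfg) :
    0 ≤ Ym D M d B f ω :=
  mul_nonneg (pow_nonneg hM _) (Finset.prod_nonneg fun _ _ => norm_nonneg _)

theorem mac_loc (d : ℝ) (D : Finset (ℤ × ℤ)) {ω ω' : Cfg} (h : ∀ v ∈ D, ω v = ω' v) :
    mac d D ω = mac d D ω' := by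
  unfold mac
  rw [BR.pcs_congr h]

theorem Ym_loc (D : Finset (ℤ × ℤ)) (M d B : ℝ) (f : ℤ × ℤ → ℂ) :
    ∃ F : Finset (ℤ × ℤ), ∀ ω ω' : Cfg, (∀ v ∈ F, ω v = ω' v) → Ym D M d B f ω = Ym D M d B f ω' := by
  classical
  obtain ⟨F, hF⟩ := sb_loc (B := B) (d := d)
  refine ⟨F ∪ D, fun ω ω' hw => ?_⟩
  unfold Ym
  rw [mac_loc d D fun v hv => hw v (Finset.mem_union_right _ hv),
    hF ω ω' fun v hv => hw v (Finset.mem_union_left _ hv)]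

theorem Ym_meas (D : Finset (ℤ × ℤ)) (M d B : ℝ) (f : ℤ × ℤ → ℂ) : Measurable (Ym D M d B f) := by
  obtain ⟨F, hF⟩ := Ym_loc D M d B f
  exact meas_locfun F hF

theorem Ym_int (D : Finset (ℤ × ℤ)) (M d B : ℝ) (f : ℤ × ℤ → ℂ) (q : ℝ) :
    Integrable (fun ω => Ym D M d B f ω ^ q) μ := by
  obtain ⟨F, hF⟩ := Ym_loc D M d B f
  exact H45.loc_int F fun ω ω' hw => by rw [hF ω ω' hw]

/-- The mass of a small loop is small. -/
theorem norm_GC_le {b : ℝ} (hb : 0 ≤ b) {f : ℤ × ℤ → ℂ} (hf : ∀ z, ‖f z‖ ≤ b) {ω : Cfg}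
    {ℓ : Finset Ed} (h : IsLoop ω ℓ) {d : ℝ} (hs : Small d ℓ) : ‖GC f ℓ‖ ≤ 2 * (b * d ^ 2) := by
  have h1 := G_bound' hb (g := fun z => (f z).re) (fun z => (Complex.abs_re_le_norm _).trans (hf z))
    h hs
  have h2 := G_bound' hb (g := fun z => (f z).im) (fun z => (Complex.abs_im_le_norm _).trans (hf z))
    h hs
  rw [← GC_re] at h1
  rw [← GC_im] at h2
  exact (Complex.norm_le_abs_re_add_abs_im _).trans (by linarith)

theorem norm_GC_sq (f : ℤ × ℤ → ℂ) (ℓ : Finset Ed) :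
    ‖GC f ℓ‖ ^ 2 = (G (fun z => (f z).re) ℓ) ^ 2 + (G (fun z => (f z).im) ℓ) ^ 2 := by
  rw [← Complex.normSq_eq_norm_sq, Complex.normSq_apply, GC_re, GC_im]
  ring

/-- The majorant in exponential form. -/
theorem Ym_le {D : Finset (ℤ × ℤ)} {M d B : ℝ} (hM : 1 ≤ M) {f : ℤ × ℤ → ℂ} {ω : Cfg}
    (hsm : ∀ ℓ, IsLoop ω ℓ → Small d ℓ → ‖GC f ℓ‖ ≤ 1) {N : ℕ} (hN : (mac d D ω).card ≤ N) :
    Ym D M d B f ω ≤ Real.exp (Real.log M * N + (-√3 * ∑ ℓ ∈ sb B d ω, G (fun z => (f z).re) ℓ +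
      (26 * ∑ ℓ ∈ sb B d ω, (G (fun z => (f z).re) ℓ) ^ 2 +
        26 * ∑ ℓ ∈ sb B d ω, (G (fun z => (f z).im) ℓ) ^ 2))) := by
  unfold Ym
  have h1 : ∏ ℓ ∈ sb B d ω, ‖wlC (GC f ℓ)‖ ≤
      ∏ ℓ ∈ sb B d ω, Real.exp (-√3 * (G (fun z => (f z).re) ℓ) + (26 * (G (fun z => (f z).re) ℓ) ^ 2
        + 26 * (G (fun z => (f z).im) ℓ) ^ 2)) := by
    refine Finset.prod_le_prod (fun _ _ => norm_nonneg _) fun ℓ hℓ => ?_
    rw [mem_sb] at hℓ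
    refine (wlC_near (hsm ℓ hℓ.1 hℓ.2.2)).trans (le_of_eq ?_)
    rw [norm_GC_sq, GC_re]
    congr 1
    ring
  rw [← Real.exp_sum, Finset.sum_add_distrib, Finset.sum_add_distrib, ← Finset.mul_sum,
    ← Finset.mul_sum, ← Finset.mul_sum] at h1
  have h2 : M ^ (mac d D ω).card ≤ Real.exp (Real.log M * N) := by
    have hM0 : 0 < M := by linarith
    calc M ^ (mac d D ω).card ≤ M ^ N := pow_le_pow_right₀ hM hN
      _ = Real.exp (Real.log M * N) := by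
          rw [mul_comm, Real.exp_nat_mul, Real.exp_log hM0]
  rw [Real.exp_add]
  exact mul_le_mul h2 h1 (Finset.prod_nonneg fun _ _ => norm_nonneg _) (Real.exp_pos _).le

/-- **Moments of the majorant.** -/
theorem Ym_mom {Cm κ R Rd q M : ℝ} (hCm : 0 < Cm) (hκ : 0 < κ) (hκ1 : κ ≤ 1)
    (hC : 2 * (Cm * κ ^ 2) ≤ 1) (hR : 0 ≤ R) (hRd : 0 ≤ Rd) (hq : 0 ≤ q) (hM : 1 ≤ M) :
    ∃ C ρ0 : ℝ, 0 < C ∧ 0 < ρ0 ∧ ∀ ρ : ℝ, ρ0 ≤ ρ → ∀ D : Finset (ℤ × ℤ),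
      (∀ v ∈ D, (nm v : ℝ) + 1 ≤ Rd * ρ) → ∀ f : ℤ × ℤ → ℂ, (∀ z, ‖f z‖ ≤ Cm / ρ ^ 2) →
      ∀ S : Finset (ℤ × ℤ), (∀ z ∉ S, f z = 0) → (∀ z ∈ S, (nm z : ℝ) + κ * ρ ≤ R * ρ) →
      ∫⁻ ω, ENNReal.ofReal (Ym D M (κ * ρ) (R * ρ) f ω ^ q) ∂μ ≤
        ENNReal.ofReal (C * Real.exp (-√3 * q * (∑ z ∈ S, (f z).re) * Nb (κ * ρ))) := by
  classical
  obtain ⟨ε, C1, ρ1, hε, hC1, hρ1, h1⟩ := H945.macroS κ Rd (2 * (q * Real.log M)) 0 hκ hRd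
  obtain ⟨B2, h2⟩ := lin_part' crossL0 hCm hκ hκ1 hR (4 * (√3 * q))
  have h30 : 0 ≤ √3 := Real.sqrt_nonneg 3
  obtain ⟨B3, h3⟩ := quad_part' crossL0 hCm hκ hκ1 hR (lam := 8 * (q * 26)) (by positivity)
  -- constants
  set b : ℝ := (B2 + (B3 + B3) / 2) / 2 with hb
  refine ⟨Real.exp ((Real.log C1 + b) / 2), ρ1, Real.exp_pos _, hρ1,
    fun ρ hρ D hD f hf S hS hSR => ?_⟩
  have hρ0 : 0 < ρ := lt_of_lt_of_le hρ1 hρ
  obtain ⟨N, hN1, hN2, hN3⟩ := h1 ρ hρ 0 (fun i => i.elim0)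
  set gr : ℤ × ℤ → ℝ := fun z => (f z).re with hgr
  set gi : ℤ × ℤ → ℝ := fun z => (f z).im with hgi
  have hgrb : ∀ z, |gr z| ≤ Cm / ρ ^ 2 := fun z => (Complex.abs_re_le_norm _).trans (hf z)
  have hgib : ∀ z, |gi z| ≤ Cm / ρ ^ 2 := fun z => (Complex.abs_im_le_norm _).trans (hf z)
  set d : ℝ := κ * ρ with hd
  set B : ℝ := R * ρ with hB
  have hmean : ∫ ω, ∑ ℓ ∈ sb B d ω, G gr ℓ ∂μ = (∑ z ∈ S, gr z) * Nb d :=
    mean_G (fun z hz => by simp only [hgr, hS z hz, Complex.zero_re]) hSR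
  obtain ⟨F, hF⟩ := sb_loc (B := B) (d := d)
  have hms : ∀ φ : Finset Ed → ℝ, Measurable (fun ω => ∑ ℓ ∈ sb B d ω, φ ℓ) := fun φ =>
    meas_locfun F fun ω ω' hw => by rw [hF ω ω' hw]
  obtain ⟨F', hF'⟩ := box_fin 0 ⌊(Rd + κ) * ρ⌋
  have hmN : Measurable (fun ω => (N ω : ℝ)) := meas_locfun F' fun ω ω' hw => by
    rw [hN1 ω ω' (fun v hv _ => hw v ((hF' v).2 (by rw [Int.le_floor]; exact hv)))
      ]
  -- the four terms
  set T1 : Cfg → ℝ := fun ω => q * Real.log M * (N ω : ℝ) with hT1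
  set T2 : Cfg → ℝ := fun ω => -(√3 * q) * (∑ ℓ ∈ sb B d ω, G gr ℓ -
    ∫ ω', ∑ ℓ ∈ sb B d ω', G gr ℓ ∂μ) with hT2
  set T3 : Cfg → ℝ := fun ω => q * 26 * ∑ ℓ ∈ sb B d ω, (G gr ℓ) ^ 2 with hT3
  set T4 : Cfg → ℝ := fun ω => q * 26 * ∑ ℓ ∈ sb B d ω, (G gi ℓ) ^ 2 with hT4
  have m1 : Measurable T1 := hmN.const_mul _
  have m2 : Measurable T2 := ((hms (G gr)).sub measurable_const).const_mul _
  have m3 : Measurable T3 := (hms fun ℓ => (G gr ℓ) ^ 2).const_mul _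
  have m4 : Measurable T4 := (hms fun ℓ => (G gi ℓ) ^ 2).const_mul _
  have e1 : Em μ (fun ω => 2 * T1 ω) ≤ ENNReal.ofReal (Real.exp (Real.log C1)) := by
    rw [Real.exp_log hC1]
    refine le_trans (le_of_eq ?_) hN3
    unfold Em
    refine lintegral_congr fun ω => ?_
    simp only [hT1]
    congr 2
    ring
  have e2 : Em μ (fun ω => 2 * (2 * T2 ω)) ≤ ENNReal.ofReal (Real.exp B2) := by
    refine le_trans (le_of_eq ?_) (h2 ρ hρ0 gr hgrb (-(4 * (√3 * q)))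
      (by rw [abs_neg, abs_of_nonneg (by positivity)]))
    unfold Em
    refine lintegral_congr fun ω => ?_
    simp only [hT2]
    congr 2
    ring
  have e3 : Em μ (fun ω => 2 * (2 * (2 * T3 ω))) ≤ ENNReal.ofReal (Real.exp B3) := by
    refine le_trans (le_of_eq ?_) (h3 ρ hρ0 gr hgrb)
    unfold Em
    refine lintegral_congr fun ω => ?_
    simp only [hT3]
    congr 2
    ring
  have e4 : Em μ (fun ω => 2 * (2 * (2 * T4 ω))) ≤ ENNReal.ofReal (Real.exp B3) := by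
    refine le_trans (le_of_eq ?_) (h3 ρ hρ0 gi hgib)
    unfold Em
    refine lintegral_congr fun ω => ?_
    simp only [hT4]
    congr 2
    ring
  have e34 : Em μ (fun ω => 2 * (2 * T3 ω) + 2 * (2 * T4 ω)) ≤
      ENNReal.ofReal (Real.exp ((B3 + B3) / 2)) :=
    Em_add ((m3.const_mul 2).const_mul 2) ((m4.const_mul 2).const_mul 2) e3 e4
  have e34' : Em μ (fun ω => 2 * (2 * (T3 ω + T4 ω))) ≤
      ENNReal.ofReal (Real.exp ((B3 + B3) / 2)) := by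
    refine le_trans (le_of_eq ?_) e34
    congr 1
    funext ω
    ring
  have e234 : Em μ (fun ω => 2 * T2 ω + 2 * (T3 ω + T4 ω)) ≤ ENNReal.ofReal (Real.exp b) :=
    Em_add (m2.const_mul 2) ((m3.add m4).const_mul 2) e2 e34'
  have e234' : Em μ (fun ω => 2 * (T2 ω + (T3 ω + T4 ω))) ≤ ENNReal.ofReal (Real.exp b) := by
    refine le_trans (le_of_eq ?_) e234
    congr 1
    funext ω
    ring
  have e1234 : Em μ (fun ω => T1 ω + (T2 ω + (T3 ω + T4 ω))) ≤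
      ENNReal.ofReal (Real.exp ((Real.log C1 + b) / 2)) :=
    Em_add m1 (m2.add (m3.add m4)) e1 e234'
  have hfin := Em_add_const (a := -√3 * q * (∑ z ∈ S, gr z) * Nb d) e1234
  rw [← ENNReal.ofReal_mul (Real.exp_pos _).le, mul_comm (Real.exp _)] at hfin
  refine le_trans (lintegral_mono fun ω => ENNReal.ofReal_le_ofReal ?_) hfin
  have hcard : (mac d D ω).card ≤ N ω := card_mac_le hD (hN2 ω)
  have hsm : ∀ ℓ, IsLoop ω ℓ → Small d ℓ → ‖GC f ℓ‖ ≤ 1 := by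
    intro ℓ h4 h5
    refine (norm_GC_le (by positivity) hf h4 h5).trans ?_
    have e : Cm / ρ ^ 2 * d ^ 2 = Cm * κ ^ 2 := by
      rw [hd]; field_simp
    rw [e]; exact hC
  have h6 := Ym_le (B := B) hM hsm hcard
  calc Ym D M d B f ω ^ q ≤ (Real.exp _) ^ q :=
        Real.rpow_le_rpow (Ym_nonneg (by linarith) f ω) h6 hq
    _ = _ := by
        rw [← Real.exp_mul]
        congr 1
        simp only [hT1, hT2, hT3, hT4, hmean]
        ring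

end Vale.Agent.P167.H542
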