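import Vale.Agent.P167.H542.Sm3
import Vale.Agent.P167.H542.Cx
import Vale.Agent.P167.BR.Basic
import Vale.Agent.P167.H945.Macro

/-!
# P167, block 2A-MOM: the pieces of a domain and a charge in the bulk

`Geo D p K δ`: the sites `K` are connected, the squares at distance at most `δ` of `K` belong to `D`,
`K` is connected to `p` in `D` and no loop of `D` surrounds `p`. For a charge on `K` the product of the
weights of all pieces of `D` is bounded by `M ^ (number of the pieces of diameter ≥ d)` times the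
product over the small loops of the plane near `K`.
-/

open Finset MeasureTheory ProbabilityTheory

namespace Vale.Agent.P167.H542

open Vale.Agent.P167 Vale.Agent.P167.BR
open Vale.Agent.P167.H45 (vs_nonempty)

/-- Adjacent sites, separated by a medial edge of `D`. -/
def StD (D : Finset (ℤ × ℤ)) (a b : ℤ × ℤ) : Prop :=
  ∃ e ∈ eds D, (ls e = a ∧ rs e = b) ∨ (ls e = b ∧ rs e = a)

/-- A bulk region `K` of `D`, base point `p`. -/
structure Geo (D : Finset (ℤ × ℤ)) (p : ℤ × ℤ) (K : Set (ℤ × ℤ)) (δ : ℝ) : Prop where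
  conn : ∀ z ∈ K, ∀ z' ∈ K, Relation.ReflTransGen (fun a b => a ∈ K ∧ b ∈ K ∧ StD D a b) z z'
  nbhd : ∀ z ∈ K, ∀ v : ℤ × ℤ, (nm (v - z) : ℝ) ≤ δ → v ∈ D
  base : ∀ z ∈ K, Relation.ReflTransGen (StD D) z p
  out : ∀ (ω : Cfg) (ℓ : Finset Ed), IsLoop ω ℓ → (∀ v ∈ vs ℓ, v ∈ D) → W ℓ p = 0

/-- The edge set `A` comes near `K`. -/
def Nr (K : Set (ℤ × ℤ)) (A : Finset Ed) : Prop := ∃ e ∈ A, ls e ∈ K ∧ rs e ∈ K

variable {D : Finset (ℤ × ℤ)} {p : ℤ × ℤ} {K : Set (ℤ × ℤ)} {δ d B : ℝ} {ω : Cfg} {A : Finset Ed}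

theorem pot_const (hA : ¬ Nr K A) {u : ℤ × ℤ → ℤ} (hu : PotD D A u) {z z' : ℤ × ℤ}
    (h : Relation.ReflTransGen (fun a b => a ∈ K ∧ b ∈ K ∧ StD D a b) z z') : u z = u z' := by
  induction h with
  | refl => rfl
  | tail _ h2 ih =>
    obtain ⟨ha, hb, e, he, h3⟩ := h2
    rw [ih]
    have h4 : e ∉ A := by
      intro h5
      apply hA
      rcases h3 with ⟨h6, h7⟩ | ⟨h6, h7⟩
      · exact ⟨e, h5, h6 ▸ ha, h7 ▸ hb⟩
      · exact ⟨e, h5, h6 ▸ hb, h7 ▸ ha⟩
    have h5 := hu e he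
    rw [if_neg h4, add_zero] at h5
    rcases h3 with ⟨h6, h7⟩ | ⟨h6, h7⟩
    · rw [← h6, ← h7, h5]
    · rw [← h6, ← h7, h5]

theorem pot_unique {u u' : ℤ × ℤ → ℤ} (hu : PotD D A u) (hu' : PotD D A u') {z z' : ℤ × ℤ}
    (h : Relation.ReflTransGen (StD D) z z') : u z - u' z = u z' - u' z' := by
  induction h with
  | refl => rfl
  | tail _ h2 ih =>
    obtain ⟨e, he, h3⟩ := h2
    rw [ih]
    have h5 := hu e he
    have h6 := hu' e he
    rcases h3 with ⟨h7, h8⟩ | ⟨h7, h8⟩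
    · rw [← h7, ← h8, h5, h6]; ring
    · rw [← h7, ← h8, h5, h6]; ring

theorem W_pot {ℓ : Finset Ed} (h : IsLoop ω ℓ) : PotD D ℓ (W ℓ) := fun e _ => s_jump ω ℓ h e

theorem sep_iff {ℓ : Finset Ed} (h : IsLoop ω ℓ) {z : ℤ × ℤ}
    (hz : Relation.ReflTransGen (StD D) z p) : Sep D ℓ z p ↔ W ℓ z ≠ W ℓ p := by
  constructor
  · rintro ⟨u, hu, hne⟩ heq
    have := pot_unique hu (W_pot h) hz
    omega
  · intro hne
    exact ⟨W ℓ, W_pot h, hne⟩

theorem Geo.sites (hG : Geo D p K δ) (hδ : 0 ≤ δ) {z : ℤ × ℤ} (hz : z ∈ K) : z ∈ sites D := by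
  rw [mem_sites]
  refine ⟨z, hG.nbhd z hz z ?_, Or.inl rfl, Or.inl rfl⟩
  rw [sub_self]
  simpa [nm] using hδ

/-- The charge separated by a piece which does not come near `K`. -/
theorem mass_far (hG : Geo D p K δ) (hA : ¬ Nr K A) {f : ℤ × ℤ → ℂ}
    (hf : ∀ z ∉ K, f z = 0) :
    massC D p f A = 0 ∨ massC D p f A = ∑ z ∈ sites D, f z ∧ ∀ z ∈ K, Sep D A z p := by
  classical
  by_cases hex : ∃ z ∈ K, Sep D A z p
  · right
    obtain ⟨z, hz, u, hu, hne⟩ := hex
    have hall : ∀ z' ∈ K, Sep D A z' p := fun z' hz' =>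
      ⟨u, hu, by rw [← pot_const hA hu (hG.conn z hz z' hz')]; exact hne⟩
    refine ⟨?_, hall⟩
    unfold massC
    refine Finset.sum_congr rfl fun z' _ => ?_
    by_cases hz' : z' ∈ K
    · rw [if_pos (hall z' hz')]
    · rw [hf z' hz', ite_self]
  · left
    push Not at hex
    unfold massC
    refine Finset.sum_eq_zero fun z' _ => ?_
    by_cases hz' : z' ∈ K
    · rw [if_neg (hex z' hz')]
    · rw [hf z' hz', ite_self]

theorem nm_hdv_ls (e : Ed) : nm (hdv e - ls e) ≤ 1 := by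
  have h := corner_hd e
  rw [H45.nm_le]
  simp only [Prod.fst_sub, Prod.snd_sub, abs_le]
  omega

theorem nm_tlv_ls (e : Ed) : nm (tlv e - ls e) ≤ 1 := by
  have h := corner_tl e
  rw [H45.nm_le]
  simp only [Prod.fst_sub, Prod.snd_sub, abs_le]
  omega

/-- A small edge set near `K` lies in the bulk. -/
theorem small_near (hG : Geo D p K δ) (hd : d + 1 ≤ δ) (hA : Nr K A) (hs : Small d A) :
    ∀ e ∈ A, hdv e ∈ D := by
  obtain ⟨e0, he0, h1, -⟩ := hA
  intro e he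
  refine hG.nbhd _ h1 _ ?_
  have h2 := hs (hdv e) (Finset.mem_image_of_mem _ he) (hdv e0) (Finset.mem_image_of_mem _ he0)
  have h3 : nm (hdv e - ls e0) ≤ nm (hdv e - hdv e0) + nm (hdv e0 - ls e0) := by
    have := H45.nm_add_le (hdv e - hdv e0) (hdv e0 - ls e0)
    simpa using this
  have h4 : (nm (hdv e - ls e0) : ℝ) ≤ nm (hdv e - hdv e0) + nm (hdv e0 - ls e0) := by
    exact_mod_cast h3
  have h5 : (nm (hdv e0 - ls e0) : ℝ) ≤ 1 := by exact_mod_cast nm_hdv_ls e0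
  linarith

/-- A loop of the plane whose squares belong to `D` is a piece of `D`. -/
theorem loop_mem_pcs {ℓ : Finset Ed} (h : IsLoop ω ℓ) (hD : ∀ v ∈ vs ℓ, v ∈ D) : ℓ ∈ pcs ω D := by
  have hin : ∀ e ∈ ℓ, hdv e ∈ D := fun e he => hD _ (Finset.mem_image_of_mem _ he)
  obtain ⟨e0, he0⟩ := h.nonempty
  have h1 : ℓ = piece ω D e0 := by
    ext e
    rw [mem_piece]
    constructor
    · intro he
      refine ⟨mem_eds.2 (Or.inl (hin e he)), ?_⟩
      exact h.induct (p := fun y => Relation.EqvGen (Nxt ω D) e0 y)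
        (fun y hy h3 => h3.trans _ _ _ (Relation.EqvGen.rel _ _ ⟨hin y hy, rfl⟩)) he0 he
        (Relation.EqvGen.refl _)
    · rintro ⟨_, h2⟩
      have key : ∀ a b, Relation.EqvGen (Nxt ω D) a b → (a ∈ ℓ ↔ b ∈ ℓ) := by
        intro a b hab
        induction hab with
        | rel a b h3 =>
          obtain ⟨-, rfl⟩ := h3
          exact h.nx_mem_iff.symm
        | refl a => exact Iff.rfl
        | symm a b _ ih => exact ih.symm
        | trans a b c _ _ ih1 ih2 => exact ih1.trans ih2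
      exact (key _ _ h2).1 he0
  rw [h1]
  exact piece_mem_pcs (mem_eds.2 (Or.inl (hin e0 he0)))

/-- The complex mass surrounded by a loop. -/
noncomputable def GC (f : ℤ × ℤ → ℂ) (ℓ : Finset Ed) : ℂ :=
  (G (fun z => (f z).re) ℓ : ℂ) + (G (fun z => (f z).im) ℓ : ℂ) * Complex.I

theorem GC_re (f : ℤ × ℤ → ℂ) (ℓ : Finset Ed) : (GC f ℓ).re = G (fun z => (f z).re) ℓ := by
  simp [GC]

theorem GC_im (f : ℤ × ℤ → ℂ) (ℓ : Finset Ed) : (GC f ℓ).im = G (fun z => (f z).im) ℓ := by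
  simp [GC]

open Classical in
/-- The mass of a loop in the bulk. -/
theorem mass_near (hG : Geo D p K δ) (hδ : 0 ≤ δ) {ℓ : Finset Ed} (h : IsLoop ω ℓ)
    (hD : ∀ v ∈ vs ℓ, v ∈ D) {f : ℤ × ℤ → ℂ} (hf : ∀ z ∉ K, f z = 0) :
    massC D p f ℓ = GC f ℓ := by
  have hp := hG.out ω ℓ h hD
  have key : ∀ g : ℤ × ℤ → ℝ, (∀ z ∉ K, g z = 0) →
      ∑ z ∈ sites D, (if Sep D ℓ z p then g z else 0) = G g ℓ := by
    intro g hg
    have hfin : (ins ℓ).Finite := H45.ins_fin s_out h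
    unfold G
    rw [finsum_mem_eq_finite_toFinset_sum _ hfin, ← Finset.sum_filter]
    have h1 : ∑ z ∈ (sites D).filter (fun z => Sep D ℓ z p), g z =
        ∑ z ∈ (sites D).filter (fun z => Sep D ℓ z p ∧ z ∈ K), g z := by
      rw [← Finset.filter_filter]
      refine (Finset.sum_filter_of_ne fun z _ hz => ?_).symm
      by_contra hcon
      exact hz (hg z hcon)
    have h2 : ∑ z ∈ hfin.toFinset, g z = ∑ z ∈ hfin.toFinset.filter (fun z => z ∈ K), g z := by
      refine (Finset.sum_filter_of_ne fun z _ hz => ?_).symm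
      by_contra hcon
      exact hz (hg z hcon)
    rw [h1, h2]
    refine Finset.sum_congr ?_ fun _ _ => rfl
    ext z
    rw [Finset.mem_filter, Finset.mem_filter, Set.Finite.mem_toFinset]
    constructor
    · rintro ⟨_, h3, h4⟩
      rw [sep_iff h (hG.base z h4), hp] at h3
      exact ⟨h3, h4⟩
    · rintro ⟨h3, h4⟩
      refine ⟨hG.sites hδ h4, ?_, h4⟩
      rw [sep_iff h (hG.base z h4), hp]
      exact h3
  apply Complex.ext
  · rw [massC_re, GC_re, ← key _ fun z hz => by rw [hf z hz]; rfl]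
    rfl
  · rw [massC_im, GC_im, ← key _ fun z hz => by rw [hf z hz]; rfl]
    rfl

end Vale.Agent.P167.H542
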