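import Vale.Agent.P167.H542.Cx

/-!
# P167, block 2A-MOM: bounds of the weights with complex masses
-/

namespace Vale.Agent.P167.H542

open Vale.Agent.P167 Vale.Agent.P167.BR

theorem norm_cos_le (z : ℂ) : ‖Complex.cos z‖ ≤ Real.exp |z.im| := by
  have h := Complex.two_cos z
  have h1 : ‖2 * Complex.cos z‖ ≤ Real.exp |z.im| + Real.exp |z.im| := by
    rw [h]
    refine (norm_add_le _ _).trans (add_le_add ?_ ?_)
    · rw [Complex.norm_exp]
      refine Real.exp_le_exp.2 ?_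
      simp only [Complex.mul_re, Complex.I_re, mul_zero, Complex.I_im, mul_one, zero_sub]
      exact neg_le_abs _
    · rw [Complex.norm_exp]
      refine Real.exp_le_exp.2 ?_
      simp only [Complex.mul_re, Complex.I_re, mul_zero, Complex.I_im, mul_one, zero_sub,
        Complex.neg_im, neg_neg]
      exact le_abs_self _
  rw [norm_mul, Complex.norm_ofNat] at h1
  linarith

theorem norm_wlC_le (t : ℂ) : ‖wlC t‖ ≤ 2 * Real.exp |t.im| := by
  unfold wlC
  rw [norm_div, ← Complex.ofReal_cos, Real.cos_pi_div_three, Complex.norm_real]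
  have h := norm_cos_le (((Real.pi / 3 : ℝ) : ℂ) + t)
  have e : (((Real.pi / 3 : ℝ) : ℂ) + t).im = t.im := by simp
  rw [e] at h
  rw [div_le_iff₀ (by norm_num)]
  rw [Real.norm_of_nonneg (by norm_num : (0 : ℝ) ≤ 1 / 2)]
  linarith

theorem norm_wsC_le (t : ℂ) : ‖wsC t‖ ≤ 2 * Real.exp |t.im| := by
  unfold wsC
  have h3 : (1 : ℝ) ≤ √3 := by
    rw [Real.one_le_sqrt]; norm_num
  rw [norm_div, ← Complex.ofReal_cos, Real.cos_pi_div_six, Complex.norm_real]
  have h := norm_cos_le (((Real.pi / 6 : ℝ) : ℂ) + t)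
  have e : (((Real.pi / 6 : ℝ) : ℂ) + t).im = t.im := by simp
  rw [e] at h
  rw [Real.norm_of_nonneg (by positivity : (0 : ℝ) ≤ √3 / 2), div_le_iff₀ (by positivity)]
  have h4 := Real.exp_pos |t.im|
  nlinarith

theorem norm_wpC_le (D : Finset (ℤ × ℤ)) (A : Finset Ed) (t : ℂ) :
    ‖wpC D A t‖ ≤ 2 * Real.exp |t.im| := by
  unfold wpC
  split_ifs
  · exact norm_wlC_le t
  · exact norm_wsC_le t

theorem wlC_eq (t : ℂ) : wlC t = Complex.cos t - (√3 : ℝ) * Complex.sin t := by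
  unfold wlC
  rw [Complex.cos_add, ← Complex.ofReal_cos, ← Complex.ofReal_sin, Real.cos_pi_div_three,
    Real.sin_pi_div_three]
  push_cast
  ring

theorem wlC_sub {t : ℂ} (ht : ‖t‖ ≤ 1) : ‖wlC t - (1 - (√3 : ℝ) * t)‖ ≤ 3 * ‖t‖ ^ 2 := by
  have h3 : √3 ≤ 2 := by
    rw [Real.sqrt_le_left (by norm_num)]; norm_num
  have h30 : 0 ≤ √3 := Real.sqrt_nonneg 3
  have e1 : ‖t * Complex.I‖ = ‖t‖ := by simp
  have e2 : ‖-t * Complex.I‖ = ‖t‖ := by simp
  have h1 := Complex.norm_exp_sub_one_sub_id_le (x := t * Complex.I) (by rw [e1]; exact ht)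
  have h2 := Complex.norm_exp_sub_one_sub_id_le (x := -t * Complex.I) (by rw [e2]; exact ht)
  rw [e1] at h1
  rw [e2] at h2
  have hI : Complex.I * Complex.I = -1 := Complex.I_mul_I
  set r1 := Complex.exp (t * Complex.I) - 1 - t * Complex.I with hr1
  set r2 := Complex.exp (-t * Complex.I) - 1 - -t * Complex.I with hr2
  have e : wlC t - (1 - (√3 : ℝ) * t) = (r1 + r2) / 2 - (√3 : ℝ) * ((r2 - r1) * Complex.I / 2) := by
    rw [wlC_eq, Complex.cos, Complex.sin, hr1, hr2]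
    linear_combination (√3 : ℝ) * t * hI
  rw [e]
  have g1 : ‖(r1 + r2) / 2‖ ≤ ‖t‖ ^ 2 := by
    rw [norm_div, Complex.norm_ofNat, div_le_iff₀ (by norm_num)]
    refine (norm_add_le _ _).trans ?_
    linarith
  have g2 : ‖((√3 : ℝ) : ℂ) * ((r2 - r1) * Complex.I / 2)‖ ≤ √3 * ‖t‖ ^ 2 := by
    rw [norm_mul, Complex.norm_real, Real.norm_of_nonneg h30, norm_div, norm_mul, Complex.norm_I,
      mul_one, Complex.norm_ofNat]
    refine mul_le_mul_of_nonneg_left ?_ h30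
    rw [div_le_iff₀ (by norm_num)]
    refine (norm_sub_le _ _).trans ?_
    linarith
  refine (norm_sub_le _ _).trans ?_
  nlinarith [sq_nonneg ‖t‖]

theorem wlC_near {t : ℂ} (ht : ‖t‖ ≤ 1) :
    ‖wlC t‖ ≤ Real.exp (-√3 * t.re + 26 * ‖t‖ ^ 2) := by
  have h3 : √3 ≤ 2 := by
    rw [Real.sqrt_le_left (by norm_num)]; norm_num
  have h30 : 0 ≤ √3 := Real.sqrt_nonneg 3
  have hsq : √3 ^ 2 = 3 := Real.sq_sqrt (by norm_num)
  have h := wlC_sub ht
  have hre : |t.re| ≤ 1 := (Complex.abs_re_le_norm t).trans ht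
  rw [abs_le] at hre
  set x := t.re with hx
  set q := ‖t‖ ^ 2 with hq
  have hq0 : 0 ≤ q := sq_nonneg _
  have h1 : ‖1 - (√3 : ℝ) * t‖ ^ 2 = 1 - 2 * √3 * x + 3 * q := by
    rw [hq, ← Complex.normSq_eq_norm_sq, ← Complex.normSq_eq_norm_sq, Complex.normSq_apply,
      Complex.normSq_apply]
    simp only [Complex.sub_re, Complex.one_re, Complex.mul_re, Complex.ofReal_re,
      Complex.ofReal_im, zero_mul, sub_zero, Complex.sub_im, Complex.one_im, Complex.mul_im,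
      add_zero, zero_sub]
    rw [← hx]
    linear_combination (x ^ 2 + t.im ^ 2) * hsq
  have h2 : ‖1 - (√3 : ℝ) * t‖ ≤ Real.exp (-√3 * x + 3 / 2 * q) := by
    refine abs_le_of_sq_le_sq' ?_ (Real.exp_pos _).le |>.2
    rw [h1, ← Real.exp_nat_mul]
    have := Real.add_one_le_exp (((2 : ℕ) : ℝ) * (-√3 * x + 3 / 2 * q))
    push_cast at this ⊢
    linarith
  have h4 : (1 : ℝ) / 8 ≤ Real.exp (-√3 * x + 3 / 2 * q) := by
    have h5 : (-2 : ℝ) ≤ -√3 * x + 3 / 2 * q := by nlinarith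
    have h6 : Real.exp (-2) ≤ Real.exp (-√3 * x + 3 / 2 * q) := Real.exp_le_exp.2 h5
    have h7 : (1 : ℝ) / 8 ≤ Real.exp (-2) := by
      rw [Real.exp_neg, one_div]
      refine inv_anti₀ (Real.exp_pos _) ?_
      have h8 := Real.exp_one_lt_d9
      have h9 : Real.exp 2 = Real.exp 1 * Real.exp 1 := by rw [← Real.exp_add]; norm_num
      rw [h9]
      nlinarith [Real.exp_pos 1]
    linarith
  have h10 : ‖wlC t‖ ≤ Real.exp (-√3 * x + 3 / 2 * q) + 3 * q := by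
    have e : wlC t = (1 - (√3 : ℝ) * t) + (wlC t - (1 - (√3 : ℝ) * t)) := by ring
    rw [e]
    exact (norm_add_le _ _).trans (add_le_add h2 h)
  have h11 : (1 : ℝ) + 24 * q ≤ Real.exp (24 * q) := by
    have := Real.add_one_le_exp (24 * q); linarith
  calc ‖wlC t‖ ≤ Real.exp (-√3 * x + 3 / 2 * q) + 3 * q := h10
    _ ≤ Real.exp (-√3 * x + 3 / 2 * q) * (1 + 24 * q) := by nlinarith
    _ ≤ Real.exp (-√3 * x + 3 / 2 * q) * Real.exp (24 * q) :=
        mul_le_mul_of_nonneg_left h11 (Real.exp_pos _).le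
    _ = Real.exp (-√3 * x + 51 / 2 * q) := by rw [← Real.exp_add]; congr 1; ring
    _ ≤ _ := Real.exp_le_exp.2 (by linarith)

theorem wlC_lower {t : ℂ} (ht : ‖t‖ ≤ 1 / 10) : 1 / 2 ≤ ‖wlC t‖ := by
  have h3 : √3 ≤ 2 := by
    rw [Real.sqrt_le_left (by norm_num)]; norm_num
  have h30 : 0 ≤ √3 := Real.sqrt_nonneg 3
  have h := wlC_sub (t := t) (by linarith)
  have h0 := norm_nonneg t
  have h1 : ‖(1 : ℂ)‖ - ‖((√3 : ℝ) : ℂ) * t‖ ≤ ‖1 - (√3 : ℝ) * t‖ := norm_sub_norm_le _ _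
  rw [norm_one, norm_mul, Complex.norm_real, Real.norm_of_nonneg h30] at h1
  have h2 : ‖1 - (√3 : ℝ) * t‖ ≤ ‖wlC t‖ + ‖wlC t - (1 - (√3 : ℝ) * t)‖ := by
    have e : 1 - (√3 : ℝ) * t = wlC t - (wlC t - (1 - (√3 : ℝ) * t)) := by ring
    conv_lhs => rw [e]
    exact norm_sub_le _ _
  have h4 : ‖t‖ ^ 2 ≤ 1 / 100 := by nlinarith
  nlinarith

theorem wpC_zero (D : Finset (ℤ × ℤ)) (A : Finset Ed) : wpC D A 0 = 1 := by
  unfold wpC wlC wsC
  rw [add_zero, add_zero]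
  split_ifs
  · rw [← Complex.ofReal_cos, Real.cos_pi_div_three]
    refine div_self ?_
    norm_num
  · rw [← Complex.ofReal_cos, Real.cos_pi_div_six]
    refine div_self ?_
    have : (0 : ℝ) < √3 / 2 := by positivity
    exact_mod_cast this.ne'

theorem wsC_neg : wsC (-(Real.pi / 3 : ℝ) : ℂ) = 1 := by
  unfold wsC
  have e : ((Real.pi / 6 : ℝ) : ℂ) + -((Real.pi / 3 : ℝ) : ℂ) = ((-(Real.pi / 6) : ℝ) : ℂ) := by
    push_cast; ring
  rw [e, ← Complex.ofReal_cos, ← Complex.ofReal_cos, Real.cos_neg, Real.cos_pi_div_six]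
  refine div_self ?_
  have : (0 : ℝ) < √3 / 2 := by positivity
  exact_mod_cast this.ne'

end Vale.Agent.P167.H542
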