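import Vale.Agent.P167.H542.Pc
import Vale.Agent.P167.H542.Wt

/-!
# P167, block 2A-MOM: the product over the pieces is bounded by the product over the small loops
-/

open Finset MeasureTheory ProbabilityTheory

namespace Vale.Agent.P167.H542

open Vale.Agent.P167 Vale.Agent.P167.BR
open Vale.Agent.P167.H45 (vs_nonempty)

variable {D : Finset (ℤ × ℤ)} {p : ℤ × ℤ} {K : Set (ℤ × ℤ)} {δ d B : ℝ} {ω : Cfg} {A : Finset Ed}

/-! ### Pieces are segments -/

theorem isSeg_loop {ℓ : Finset Ed} (h : IsLoop ω ℓ) : H945.IsSeg ω ℓ := by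
  classical
  obtain ⟨e, he⟩ := h
  have hex : ∀ a : Ed, ∃ n : ℕ, a ∈ ℓ → (nx ω)^[n] e = a := by
    intro a
    by_cases ha : a ∈ ℓ
    · obtain ⟨n, hn⟩ := (he a).1 ha
      exact ⟨n, fun _ => hn⟩
    · exact ⟨0, fun h => absurd h ha⟩
  choose n hn using hex
  refine ⟨e, ℓ.sup n, fun a => ⟨fun ha => ⟨n a, Finset.le_sup ha, hn a ha⟩, ?_⟩⟩
  rintro ⟨i, -, hi⟩
  exact (he a).2 ⟨i, hi⟩

theorem isSeg_piece (h : A ∈ pcs ω D) : H945.IsSeg ω A := by
  classical
  by_cases hl : IsLp D A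
  · exact isSeg_loop (IsLp.isLoop h hl)
  · obtain ⟨e1, he1, hx⟩ := exists_exit hl
    have hrun : ∀ e ∈ A, ∃ k, Run ω D e k e1 := by
      intro e he
      obtain ⟨k, hk | hk⟩ := run_of_mem h he he1
      · exact ⟨k, hk⟩
      · rcases Nat.eq_zero_or_pos k with rfl | hk0
        · have : e1 = e := hk.1
          subst this
          exact ⟨0, Run.zero _⟩
        · exact absurd (hk.2 0 hk0) hx
    have hrun' : ∀ e : Ed, ∃ k, e ∈ A → Run ω D e k e1 := by
      intro e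
      by_cases he : e ∈ A
      · obtain ⟨k, hk⟩ := hrun e he
        exact ⟨k, fun _ => hk⟩
      · exact ⟨0, fun h => absurd h he⟩
    choose κ hκ using hrun'
    obtain ⟨e0, he0, hmax⟩ := Finset.exists_max_image A κ (pcs_nonempty h)
    refine ⟨e0, κ e0, fun a => ⟨fun ha => ⟨κ e0 - κ a, Nat.sub_le _ _, ?_⟩, ?_⟩⟩
    · have h1 := hmax a ha
      apply (s_nx ω).1.iterate (κ a)
      rw [← Function.iterate_add_apply, Nat.add_sub_cancel' h1, (hκ e0 he0).1, (hκ a ha).1]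
    · rintro ⟨i, hi, rfl⟩
      exact (mem_of_run h (⟨rfl, fun j hj => (hκ e0 he0).2 j (by omega)⟩ :
        Run ω D e0 i ((nx ω)^[i] e0))).1 he0

open Classical in
/-- The pieces of diameter at least `d`. -/
noncomputable def mac (d : ℝ) (D : Finset (ℤ × ℤ)) (ω : Cfg) : Finset (Finset Ed) :=
  (pcs ω D).filter fun A => ¬ Small d A

/-- The number of the macroscopic pieces. -/
theorem card_mac_le {R : ℝ} (hD : ∀ v ∈ D, (nm v : ℝ) + 1 ≤ R) {N : ℕ}
    (hN : H945.Maj 0 R d ω N) : (mac d D ω).card ≤ N := by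
  classical
  refine hN _ (fun A hA => isSeg_piece (Finset.mem_filter.1 hA).1) ?_ ?_
  · intro A hA A' hA' hne
    rw [Finset.disjoint_left]
    intro e he he'
    exact hne (eq_of_mem_pcs (Finset.mem_filter.1 hA).1 (Finset.mem_filter.1 hA').1 he he')
  · intro A hA
    obtain ⟨h1, h2⟩ := Finset.mem_filter.1 hA
    constructor
    · obtain ⟨e, he⟩ := pcs_nonempty h1
      refine ⟨e, he, ?_⟩
      rw [sub_zero]
      rcases mem_eds.1 (subset_eds h1 he) with h3 | h3
      · linarith [hD _ h3]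
      · have h4 := hD _ h3
        have h5 := H945.nm_step e
        have h6 : nm (hdv e) ≤ nm (hdv e - tlv e) + nm (tlv e) := by
          simpa using H45.nm_add_le (hdv e - tlv e) (tlv e)
        have h7 : (nm (hdv e) : ℝ) ≤ nm (hdv e - tlv e) + nm (tlv e) := by exact_mod_cast h6
        have h8 : (nm (hdv e - tlv e) : ℝ) ≤ 1 := by exact_mod_cast h5
        linarith
    · unfold Small at h2
      push Not at h2
      obtain ⟨u, hu, v, hv, h3⟩ := h2
      obtain ⟨e, he, rfl⟩ := Finset.mem_image.1 hu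
      obtain ⟨e', he', rfl⟩ := Finset.mem_image.1 hv
      exact ⟨e, he, e', he', h3⟩

/-! ### The weights -/

/-- Total absolute imaginary charge. -/
noncomputable def imn (D : Finset (ℤ × ℤ)) (f : ℤ × ℤ → ℂ) : ℝ := ∑ z ∈ sites D, |(f z).im|

theorem imn_nonneg (D : Finset (ℤ × ℤ)) (f : ℤ × ℤ → ℂ) : 0 ≤ imn D f :=
  Finset.sum_nonneg fun _ _ => abs_nonneg _

theorem massC_im_le (f : ℤ × ℤ → ℂ) (A : Finset Ed) : |(massC D p f A).im| ≤ imn D f := by
  classical
  unfold massC imn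
  rw [Complex.im_sum]
  refine (Finset.abs_sum_le_sum_abs _ _).trans (Finset.sum_le_sum fun z _ => ?_)
  split_ifs
  · exact le_rfl
  · simp

theorem norm_wp_le (f : ℤ × ℤ → ℂ) (A : Finset Ed) {M : ℝ} (hM : 2 * Real.exp (imn D f) ≤ M) :
    ‖wpC D A (massC D p f A)‖ ≤ M :=
  (norm_wpC_le _ _ _).trans (le_trans (mul_le_mul_of_nonneg_left
    (Real.exp_le_exp.2 (massC_im_le f A)) (by norm_num)) hM)

/-- The data of a charge in the bulk. -/
structure Chc (D : Finset (ℤ × ℤ)) (K : Set (ℤ × ℤ)) (d B : ℝ) (f : ℤ × ℤ → ℂ) : Prop where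
  off : ∀ z ∉ K, f z = 0
  tot : ∑ z ∈ sites D, f z = 0 ∨ ∑ z ∈ sites D, f z = (-(Real.pi / 3 : ℝ) : ℂ)
  wide : ∃ z ∈ K, ∃ z' ∈ K, 2 * d ≤ (nm (z - z') : ℝ)
  box : ∀ z ∈ K, (nm z : ℝ) + 1 ≤ B

theorem not_ins_of_wide {f : ℤ × ℤ → ℂ} (hf : Chc D K d B f) {ℓ : Finset Ed} (h : IsLoop ω ℓ)
    (hs : Small d ℓ) (hall : ∀ z ∈ K, z ∈ ins ℓ) : False := by
  obtain ⟨z, hz, z', hz', h1⟩ := hf.wide
  obtain ⟨v, hv⟩ := vs_nonempty h
  have h2 := near_of_ins h hs (hall z hz) hv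
  have h3 := near_of_ins h hs (hall z' hz') hv
  have h4 : nm (z - z') ≤ nm (v - z) + nm (v - z') := by
    have h5 := H45.nm_add_le (-(v - z)) (v - z')
    rw [H45.nm_neg] at h5
    have e : -(v - z) + (v - z') = z - z' := by abel
    rwa [e] at h5
  have h6 : (nm (z - z') : ℝ) ≤ nm (v - z) + nm (v - z') := by exact_mod_cast h4
  linarith

/-- The weight of a small piece far from `K` is `1`. -/
theorem wt_far (hG : Geo D p K δ) {f : ℤ × ℤ → ℂ} (hf : Chc D K d B f)
    (hA : A ∈ pcs ω D) (hs : Small d A) (hn : ¬ Nr K A) : wpC D A (massC D p f A) = 1 := by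
  rcases mass_far (p := p) hG hn hf.off with h | ⟨h, hall⟩
  · rw [h]; exact wpC_zero D A
  · rw [h]
    rcases hf.tot with h1 | h1
    · rw [h1]; exact wpC_zero D A
    · rw [h1]
      by_cases hl : IsLp D A
      · exfalso
        have hloop := IsLp.isLoop hA hl
        have hD : ∀ v ∈ vs A, v ∈ D := by
          intro v hv
          obtain ⟨e, he, rfl⟩ := Finset.mem_image.1 hv
          exact hl e he
        refine not_ins_of_wide hf hloop hs fun z hz => ?_
        have h2 := (sep_iff hloop (hG.base z hz)).1 (hall z hz)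
        rw [hG.out ω A hloop hD] at h2
        exact h2
      · unfold wpC
        rw [if_neg hl]
        exact wsC_neg

/-- The mass of a small loop of the plane which does not come near `K`. -/
theorem GC_far (hG : Geo D p K δ) {f : ℤ × ℤ → ℂ} (hf : Chc D K d B f)
    {ℓ : Finset Ed} (h : IsLoop ω ℓ) (hs : Small d ℓ) (hn : ¬ Nr K ℓ) : GC f ℓ = 0 := by
  have h1 : ∀ z ∈ K, z ∉ ins ℓ := by
    intro z hz hzi
    refine not_ins_of_wide hf h hs fun z' hz' => ?_
    have h2 := pot_const hn (W_pot (D := D) h) (hG.conn z hz z' hz')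
    have h3 : W ℓ z ≠ 0 := hzi
    show W ℓ z' ≠ 0
    rwa [← h2]
  have h2 : ∀ g : ℤ × ℤ → ℝ, (∀ z ∉ K, g z = 0) → G g ℓ = 0 := by
    intro g hg
    unfold G
    refine finsum_mem_eq_zero_of_forall_eq_zero fun z hz => ?_
    by_contra hne
    have h3 : z ∈ K := by
      by_contra hcon
      exact hne (hg z hcon)
    exact h1 z h3 hz
  unfold GC
  rw [h2 _ fun z hz => by rw [hf.off z hz]; rfl, h2 _ fun z hz => by rw [hf.off z hz]; rfl]
  simp

open Classical in
/-- **The product over a family of pieces.** -/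
theorem prod_le (hG : Geo D p K δ) (hd0 : 0 ≤ d) (hd : d + 1 ≤ δ) {f : ℤ × ℤ → ℂ}
    (hf : Chc D K d B f) {M : ℝ} (hM : 2 * Real.exp (imn D f) ≤ M)
    (hsm : ∀ ℓ, IsLoop ω ℓ → Small d ℓ → ‖GC f ℓ‖ ≤ 1 / 10)
    {S : Finset (Finset Ed)} (hS : S ⊆ pcs ω D) :
    ∏ A ∈ S, ‖wpC D A (massC D p f A)‖ ≤
      2 ^ ((pcs ω D) \ S).card * (M ^ (mac d D ω).card * ∏ ℓ ∈ sb B d ω, ‖wlC (GC f ℓ)‖) := by
  have hδ : 0 ≤ δ := by linarith
  have hM1 : 1 ≤ M := by
    refine le_trans ?_ hM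
    have := Real.add_one_le_exp (imn D f)
    have := imn_nonneg D f
    linarith
  set b : Finset Ed → ℝ := fun A =>
    if ¬ Small d A then M else if Nr K A then ‖wlC (GC f A)‖ else 1 with hb
  -- near small pieces are loops
  have hns : ∀ A ∈ pcs ω D, Small d A → Nr K A → IsLoop ω A ∧ (∀ v ∈ vs A, v ∈ D) ∧
      wpC D A (massC D p f A) = wlC (GC f A) := by
    intro A hA hs hn
    have hl : IsLp D A := small_near hG hd hn hs
    have hloop := IsLp.isLoop hA hl
    have hD : ∀ v ∈ vs A, v ∈ D := by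
      intro v hv
      obtain ⟨e, he, rfl⟩ := Finset.mem_image.1 hv
      exact hl e he
    refine ⟨hloop, hD, ?_⟩
    rw [mass_near hG hδ hloop hD hf.off]
    unfold wpC
    rw [if_pos hl]
  have hwb : ∀ A ∈ pcs ω D, ‖wpC D A (massC D p f A)‖ ≤ b A := by
    intro A hA
    simp only [hb]
    by_cases hs : Small d A
    · rw [if_neg (not_not.2 hs)]
      by_cases hn : Nr K A
      · rw [if_pos hn, (hns A hA hs hn).2.2]
      · rw [if_neg hn, wt_far hG hf hA hs hn, norm_one]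
    · rw [if_pos hs]
      exact norm_wp_le f A hM
  have hb12 : ∀ A ∈ pcs ω D, 1 / 2 ≤ b A := by
    intro A hA
    simp only [hb]
    by_cases hs : Small d A
    · rw [if_neg (not_not.2 hs)]
      by_cases hn : Nr K A
      · rw [if_pos hn]
        exact wlC_lower (hsm A (hns A hA hs hn).1 hs)
      · rw [if_neg hn]; norm_num
    · rw [if_pos hs]; linarith
  have h1 : ∏ A ∈ S, ‖wpC D A (massC D p f A)‖ ≤ ∏ A ∈ S, b A :=
    Finset.prod_le_prod (fun _ _ => norm_nonneg _) fun A hA => hwb A (hS hA)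
  have h2 : ∏ A ∈ pcs ω D, b A = (∏ A ∈ pcs ω D \ S, b A) * ∏ A ∈ S, b A :=
    (Finset.prod_sdiff hS).symm
  have hbS : 0 ≤ ∏ A ∈ S, b A := Finset.prod_nonneg fun A hA =>
    le_trans (by norm_num) (hb12 A (hS hA))
  have h3 : (1 / 2 : ℝ) ^ (pcs ω D \ S).card ≤ ∏ A ∈ pcs ω D \ S, b A := by
    rw [← Finset.prod_const]
    exact Finset.prod_le_prod (fun _ _ => by norm_num) fun A hA =>
      hb12 A (Finset.mem_sdiff.1 hA).1
  have h4 : ∏ A ∈ S, b A ≤ 2 ^ (pcs ω D \ S).card * ∏ A ∈ pcs ω D, b A := by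
    rw [h2]
    have h5 : (2 : ℝ) ^ (pcs ω D \ S).card * (1 / 2) ^ (pcs ω D \ S).card = 1 := by
      rw [← mul_pow]; norm_num
    calc ∏ A ∈ S, b A = (2 : ℝ) ^ (pcs ω D \ S).card * ((1 / 2) ^ (pcs ω D \ S).card *
          ∏ A ∈ S, b A) := by rw [← mul_assoc, h5, one_mul]
      _ ≤ _ := by gcongr
  have h6 : ∏ A ∈ pcs ω D, b A = M ^ (mac d D ω).card * ∏ ℓ ∈ sb B d ω, ‖wlC (GC f ℓ)‖ := by
    simp only [hb]
    rw [Finset.prod_ite, Finset.prod_const]
    congr 1
    rw [← Finset.prod_filter]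
    refine Finset.prod_subset ?_ ?_
    · intro A hA
      rw [Finset.mem_filter, Finset.mem_filter, not_not] at hA
      obtain ⟨⟨hA1, hs⟩, hn⟩ := hA
      obtain ⟨hloop, hD, -⟩ := hns A hA1 hs hn
      rw [mem_sb]
      refine ⟨hloop, ?_, hs⟩
      obtain ⟨e, he, he1, -⟩ := hn
      refine ⟨hdv e, Finset.mem_image_of_mem _ he, ?_⟩
      have h5 : nm (hdv e) ≤ nm (hdv e - ls e) + nm (ls e) := by
        simpa using H45.nm_add_le (hdv e - ls e) (ls e)
      have h7 : (nm (hdv e) : ℝ) ≤ nm (hdv e - ls e) + nm (ls e) := by exact_mod_cast h5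
      have h8 : (nm (hdv e - ls e) : ℝ) ≤ 1 := by exact_mod_cast nm_hdv_ls e
      linarith [hf.box _ he1]
    · intro A hA hA'
      rw [mem_sb] at hA
      obtain ⟨hloop, -, hs⟩ := hA
      by_cases hn : Nr K A
      · exfalso
        apply hA'
        have hl : ∀ e ∈ A, hdv e ∈ D := small_near hG hd hn hs
        have hD : ∀ v ∈ vs A, v ∈ D := by
          intro v hv
          obtain ⟨e, he, rfl⟩ := Finset.mem_image.1 hv
          exact hl e he
        rw [Finset.mem_filter, Finset.mem_filter, not_not]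
        exact ⟨⟨loop_mem_pcs hloop hD, hs⟩, hn⟩
      · rw [GC_far hG hf hloop hs hn]
        have : wlC 0 = 1 := by
          unfold wlC
          rw [add_zero, ← Complex.ofReal_cos, Real.cos_pi_div_three]
          exact div_self (by norm_num)
        rw [this, norm_one]
  rw [← h6]
  exact h1.trans h4

/-- **The functional is bounded by the small loops of the plane.** -/
theorem norm_XDc_le (hG : Geo D p K δ) (hd0 : 0 ≤ d) (hd : d + 1 ≤ δ) {f : ℤ × ℤ → ℂ}
    (hf : Chc D K d B f) {M : ℝ} (hM : 2 * Real.exp (imn D f) ≤ M)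
    (hsm : ∀ ℓ, IsLoop ω ℓ → Small d ℓ → ‖GC f ℓ‖ ≤ 1 / 10) :
    ‖XDc D p f ω‖ ≤ M ^ (mac d D ω).card * ∏ ℓ ∈ sb B d ω, ‖wlC (GC f ℓ)‖ := by
  classical
  have h := prod_le hG hd0 hd hf hM hsm (S := pcs ω D) (Finset.Subset.refl _)
  rw [Finset.sdiff_self, Finset.card_empty, pow_zero, one_mul] at h
  unfold XDc
  rwa [norm_prod]

end Vale.Agent.P167.H542
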