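import Vale.Agent.P167.Top.PlaneW

/-!
# P167, block 2A-MOM: translations of the squares act on the loops

`tC a ω` is the translated configuration; if `a` is odd the colours are exchanged. The loops of
`tC a ω` are the translated loops of `ω`.
-/

open Finset MeasureTheory ProbabilityTheory

namespace Vale.Agent.P167.H542

open Vale.Agent.P167

/-- The translation by `a` of a configuration (with the colour flip if `a` is odd). -/
def tC (a : ℤ × ℤ) (ω : Cfg) : Cfg := fun v =>
  if Even (a.1 + a.2) then ω (v - a) else !ω (v - a)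

/-- The translation by `a` of a medial edge. -/
def tE (a : ℤ × ℤ) : Ed → Ed
  | Sum.inl v => Sum.inl (v + a)
  | Sum.inr v => Sum.inr (v + a)

theorem tE_inj (a : ℤ × ℤ) : Function.Injective (tE a) := by
  rintro (x | x) (y | y) h <;> simp [tE] at h ⊢ <;> exact h

theorem tE_tE (a b : ℤ × ℤ) (e : Ed) : tE a (tE b e) = tE (b + a) e := by
  rcases e with v | v <;> simp [tE, add_assoc]

theorem tE_zero (e : Ed) : tE 0 e = e := by
  rcases e with v | v <;> simp [tE]

theorem tC_tC_neg (a : ℤ × ℤ) (ω : Cfg) : tC (-a) (tC a ω) = ω := by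
  funext v
  have h : Even ((-a).1 + (-a).2) ↔ Even (a.1 + a.2) := by
    rw [Prod.fst_neg, Prod.snd_neg, ← neg_add, even_neg]
  unfold tC
  rw [sub_neg_eq_add, add_sub_cancel_right]
  by_cases ha : Even (a.1 + a.2)
  · rw [if_pos (h.2 ha), if_pos ha]
  · rw [if_neg (fun h' => ha (h.1 h')), if_neg ha, Bool.not_not]

section even

variable {a : ℤ × ℤ} (ha : Even (a.1 + a.2))
include ha

theorem even_add_iff (v : ℤ × ℤ) : Even ((v + a).1 + (v + a).2) ↔ Even (v.1 + v.2) := by
  have : (v + a).1 + (v + a).2 = (v.1 + v.2) + (a.1 + a.2) := by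
    simp only [Prod.fst_add, Prod.snd_add]; ring
  rw [this, Int.even_add]
  simp [ha]

theorem hdv_tE (e : Ed) : hdv (tE a e) = hdv e + a := by
  rcases e with v | v
  · simp only [tE, hdv, even_add_iff ha]
    split_ifs
    · ext <;> simp; ring
    · rfl
  · simp only [tE, hdv, even_add_iff ha]
    split_ifs
    · rfl
    · ext <;> simp; ring

theorem tlv_tE (e : Ed) : tlv (tE a e) = tlv e + a := by
  rcases e with v | v
  · simp only [tE, tlv, even_add_iff ha]
    split_ifs
    · rfl
    · ext <;> simp; ring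
  · simp only [tE, tlv, even_add_iff ha]
    split_ifs
    · ext <;> simp; ring
    · rfl

theorem sg_tE (e : Ed) : sg (tE a e) = sg e := by
  rcases e with v | v <;> simp only [tE, sg, even_add_iff ha]

theorem tC_even (ω : Cfg) (v : ℤ × ℤ) : tC a ω (v + a) = ω v := by
  simp [tC, ha]

theorem nx_tE (ω : Cfg) (e : Ed) : nx (tC a ω) (tE a e) = tE a (nx ω e) := by
  rcases e with v | v
  · by_cases hv : Even (v.1 + v.2)
    · have h1 : tC a ω ((v + a).1 + 1, (v + a).2) = ω (v.1 + 1, v.2) := by
        rw [← tC_even ha ω (v.1 + 1, v.2)]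
        congr 1
        ext <;> simp <;> ring
      simp only [tE, nx, (even_add_iff ha v).2 hv, hv, if_true, h1]
      split_ifs <;> simp <;> ext <;> simp <;> ring
    · have h0 : ¬ Even ((v + a).1 + (v + a).2) := fun h => hv ((even_add_iff ha v).1 h)
      simp only [tE, nx, h0, hv, if_false, tC_even ha]
      split_ifs <;> simp <;> ext <;> simp <;> ring
  · by_cases hv : Even (v.1 + v.2)
    · simp only [tE, nx, (even_add_iff ha v).2 hv, hv, if_true, tC_even ha]
      split_ifs <;> simp <;> ext <;> simp <;> ring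
    · have h0 : ¬ Even ((v + a).1 + (v + a).2) := fun h => hv ((even_add_iff ha v).1 h)
      have h1 : tC a ω ((v + a).1, (v + a).2 + 1) = ω (v.1, v.2 + 1) := by
        rw [← tC_even ha ω (v.1, v.2 + 1)]
        congr 1
        ext <;> simp <;> ring
      simp only [tE, nx, h0, hv, if_false, h1]
      split_ifs <;> simp <;> ext <;> simp <;> ring

end even

section odd

variable {a : ℤ × ℤ} (ha : ¬ Even (a.1 + a.2))
include ha

theorem odd_add_iff (v : ℤ × ℤ) : Even ((v + a).1 + (v + a).2) ↔ ¬ Even (v.1 + v.2) := by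
  have : (v + a).1 + (v + a).2 = (v.1 + v.2) + (a.1 + a.2) := by
    simp only [Prod.fst_add, Prod.snd_add]; ring
  rw [this, Int.even_add]
  simp [ha]

theorem hdv_tE' (e : Ed) : hdv (tE a e) = tlv e + a := by
  rcases e with v | v
  · by_cases hv : Even (v.1 + v.2)
    · have h0 : ¬ Even ((v + a).1 + (v + a).2) := fun h => (odd_add_iff ha v).1 h hv
      simp only [tE, hdv, tlv, h0, hv, if_true, if_false]
    · have h0 : Even ((v + a).1 + (v + a).2) := (odd_add_iff ha v).2 hv
      simp only [tE, hdv, tlv, h0, hv, if_true, if_false]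
      ext <;> simp; ring
  · by_cases hv : Even (v.1 + v.2)
    · have h0 : ¬ Even ((v + a).1 + (v + a).2) := fun h => (odd_add_iff ha v).1 h hv
      simp only [tE, hdv, tlv, h0, hv, if_true, if_false]
      ext <;> simp; ring
    · have h0 : Even ((v + a).1 + (v + a).2) := (odd_add_iff ha v).2 hv
      simp only [tE, hdv, tlv, h0, hv, if_true, if_false]

theorem tlv_tE' (e : Ed) : tlv (tE a e) = hdv e + a := by
  rcases e with v | v
  · by_cases hv : Even (v.1 + v.2)
    · have h0 : ¬ Even ((v + a).1 + (v + a).2) := fun h => (odd_add_iff ha v).1 h hv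
      simp only [tE, hdv, tlv, h0, hv, if_true, if_false]
      ext <;> simp; ring
    · have h0 : Even ((v + a).1 + (v + a).2) := (odd_add_iff ha v).2 hv
      simp only [tE, hdv, tlv, h0, hv, if_true, if_false]
  · by_cases hv : Even (v.1 + v.2)
    · have h0 : ¬ Even ((v + a).1 + (v + a).2) := fun h => (odd_add_iff ha v).1 h hv
      simp only [tE, hdv, tlv, h0, hv, if_true, if_false]
    · have h0 : Even ((v + a).1 + (v + a).2) := (odd_add_iff ha v).2 hv
      simp only [tE, hdv, tlv, h0, hv, if_true, if_false]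
      ext <;> simp; ring

theorem sg_tE' (e : Ed) : sg (tE a e) = - sg e := by
  rcases e with v | v <;> simp only [tE, sg, odd_add_iff ha] <;>
    by_cases hv : Even (v.1 + v.2) <;> simp [hv]

theorem tC_odd (ω : Cfg) (v : ℤ × ℤ) : tC a ω (v + a) = !ω v := by
  simp [tC, ha]

theorem nx_tE' (ω : Cfg) (e : Ed) : nx (tC a ω) (tE a (nx ω e)) = tE a e := by
  have key : ∀ w : ℤ × ℤ, ∀ w', w' = w + a → tC a ω w' = !ω w := by
    rintro w w' rfl
    exact tC_odd ha ω w
  rcases e with ⟨x, y⟩ | ⟨x, y⟩
  · by_cases hv : Even (x + y)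
    · by_cases hw : ω (x + 1, y) = true
      · have h1 : nx ω (Sum.inl (x, y)) = Sum.inr (x + 1, y - 1) := by simp [nx, hv, hw]
        have h2 : Even (x + 1 + (y - 1)) := by
          have : x + 1 + (y - 1) = x + y := by ring
          rwa [this]
        have h3 : ¬ Even ((((x + 1, y - 1) : ℤ × ℤ) + a).1 + (((x + 1, y - 1) : ℤ × ℤ) + a).2) :=
          fun h => (odd_add_iff ha _).1 h h2
        rw [h1]
        simp only [tE, nx, h3, if_false]
        rw [key (x + 1, y) _ (by ext <;> simp; ring), hw]
        simp only [Bool.not_true, Bool.false_eq_true, if_false]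
        congr 1
        ext <;> simp <;> ring
      · have hw' : ω (x + 1, y) = false := by simpa using hw
        have h1 : nx ω (Sum.inl (x, y)) = Sum.inr (x + 1, y) := by simp [nx, hv, hw']
        have h2 : ¬ Even (x + 1 + y) := by
          have : x + 1 + y = (x + y) + 1 := by ring
          rw [this]
          intro h
          rw [Int.even_add_one] at h
          exact h hv
        have h3 : Even ((((x + 1, y) : ℤ × ℤ) + a).1 + (((x + 1, y) : ℤ × ℤ) + a).2) :=
          (odd_add_iff ha _).2 h2
        rw [h1]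
        simp only [tE, nx, h3, if_true]
        rw [key (x + 1, y) _ (by ext <;> simp), hw']
        simp only [Bool.not_false, if_true]
        congr 1
        ext <;> simp <;> ring
    · by_cases hw : ω (x, y) = true
      · have h1 : nx ω (Sum.inl (x, y)) = Sum.inr (x, y) := by simp [nx, hv, hw]
        have h3 : Even ((((x, y) : ℤ × ℤ) + a).1 + (((x, y) : ℤ × ℤ) + a).2) :=
          (odd_add_iff ha _).2 hv
        rw [h1]
        simp only [tE, nx, h3, if_true]
        rw [key (x, y) _ (by ext <;> simp), hw]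
        simp
      · have hw' : ω (x, y) = false := by simpa using hw
        have h1 : nx ω (Sum.inl (x, y)) = Sum.inr (x, y - 1) := by simp [nx, hv, hw']
        have h2 : Even (x + (y - 1)) := by
          have : x + (y - 1) = (x + y) - 1 := by ring
          rw [this, Int.even_sub_one]
          exact hv
        have h3 : ¬ Even ((((x, y - 1) : ℤ × ℤ) + a).1 + (((x, y - 1) : ℤ × ℤ) + a).2) :=
          fun h => (odd_add_iff ha _).1 h h2
        rw [h1]
        simp only [tE, nx, h3, if_false]
        rw [key (x, y) _ (by ext <;> simp; ring), hw']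
        simp only [Bool.not_false, if_true]
        congr 1
        ext <;> simp <;> ring
  · by_cases hv : Even (x + y)
    · by_cases hw : ω (x, y) = true
      · have h1 : nx ω (Sum.inr (x, y)) = Sum.inl (x - 1, y) := by simp [nx, hv, hw]
        have h2 : ¬ Even (x - 1 + y) := by
          have : x - 1 + y = (x + y) - 1 := by ring
          rw [this, Int.even_sub_one]
          simpa using hv
        have h3 : Even ((((x - 1, y) : ℤ × ℤ) + a).1 + (((x - 1, y) : ℤ × ℤ) + a).2) :=
          (odd_add_iff ha _).2 h2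
        rw [h1]
        simp only [tE, nx, h3, if_true]
        rw [key (x, y) _ (by ext <;> simp; ring), hw]
        simp only [Bool.not_true, Bool.false_eq_true, if_false]
        congr 1
        ext <;> simp <;> ring
      · have hw' : ω (x, y) = false := by simpa using hw
        have h1 : nx ω (Sum.inr (x, y)) = Sum.inl (x, y) := by simp [nx, hv, hw']
        have h3 : ¬ Even ((((x, y) : ℤ × ℤ) + a).1 + (((x, y) : ℤ × ℤ) + a).2) :=
          fun h => (odd_add_iff ha _).1 h hv
        rw [h1]
        simp only [tE, nx, h3, if_false]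
        rw [key (x, y) _ (by ext <;> simp), hw']
        simp
    · by_cases hw : ω (x, y + 1) = true
      · have h1 : nx ω (Sum.inr (x, y)) = Sum.inl (x, y + 1) := by simp [nx, hv, hw]
        have h2 : Even (x + (y + 1)) := by
          have : x + (y + 1) = (x + y) + 1 := by ring
          rw [this, Int.even_add_one]
          exact hv
        have h3 : ¬ Even ((((x, y + 1) : ℤ × ℤ) + a).1 + (((x, y + 1) : ℤ × ℤ) + a).2) :=
          fun h => (odd_add_iff ha _).1 h h2
        rw [h1]
        simp only [tE, nx, h3, if_false]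
        rw [key (x, y + 1) _ (by ext <;> simp), hw]
        simp only [Bool.not_true, Bool.false_eq_true, if_false]
        congr 1
        ext <;> simp <;> ring
      · have hw' : ω (x, y + 1) = false := by simpa using hw
        have h1 : nx ω (Sum.inr (x, y)) = Sum.inl (x - 1, y + 1) := by simp [nx, hv, hw']
        have h2 : ¬ Even (x - 1 + (y + 1)) := by
          have : x - 1 + (y + 1) = x + y := by ring
          rwa [this]
        have h3 : Even ((((x - 1, y + 1) : ℤ × ℤ) + a).1 + (((x - 1, y + 1) : ℤ × ℤ) + a).2) :=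
          (odd_add_iff ha _).2 h2
        rw [h1]
        simp only [tE, nx, h3, if_true]
        rw [key (x, y + 1) _ (by ext <;> simp; ring), hw']
        simp only [Bool.not_false, if_true]
        congr 1
        ext <;> simp <;> ring

end odd

/-! ### Loops -/

/-- Translated loop. -/
def tL (a : ℤ × ℤ) (ℓ : Finset Ed) : Finset Ed := ℓ.image (tE a)

theorem mem_tL {a : ℤ × ℤ} {ℓ : Finset Ed} {e : Ed} : tE a e ∈ tL a ℓ ↔ e ∈ ℓ := by
  unfold tL
  rw [Finset.mem_image]
  exact ⟨fun ⟨x, hx, h⟩ => tE_inj a h ▸ hx, fun h => ⟨e, h, rfl⟩⟩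

theorem tL_tL_neg (a : ℤ × ℤ) (ℓ : Finset Ed) : tL (-a) (tL a ℓ) = ℓ := by
  unfold tL
  rw [Finset.image_image]
  have : tE (-a) ∘ tE a = id := by
    funext e
    simp only [Function.comp, tE_tE, add_neg_cancel, tE_zero, id]
  rw [this, Finset.image_id]

theorem IsLoop.tL {ω : Cfg} {ℓ : Finset Ed} (h : IsLoop ω ℓ) (a : ℤ × ℤ) :
    IsLoop (tC a ω) (tL a ℓ) := by
  by_cases ha : Even (a.1 + a.2)
  · obtain ⟨e, he⟩ := h
    have key : ∀ n, (nx (tC a ω))^[n] (tE a e) = tE a ((nx ω)^[n] e) := by
      intro n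
      induction n with
      | zero => rfl
      | succ n ih => rw [Function.iterate_succ_apply', ih, nx_tE ha, Function.iterate_succ_apply']
    refine ⟨tE a e, fun e' => ?_⟩
    unfold H542.tL
    rw [Finset.mem_image]
    constructor
    · rintro ⟨x, hx, rfl⟩
      obtain ⟨n, hn⟩ := (he x).1 hx
      exact ⟨n, by rw [key, hn]⟩
    · rintro ⟨n, hn⟩
      rw [key] at hn
      exact ⟨_, (he _).2 ⟨n, rfl⟩, hn⟩
  · obtain ⟨e0, he0⟩ := h.nonempty
    refine ⟨tE a e0, fun e' => ?_⟩
    unfold H542.tL
    rw [Finset.mem_image]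
    constructor
    · rintro ⟨x, hx, rfl⟩
      exact h.induct (p := fun y => ∃ n : ℕ, (nx (tC a ω))^[n] (tE a y) = tE a x)
        (fun y _ ⟨n, hn⟩ => ⟨n + 1, by rw [Function.iterate_succ_apply, nx_tE' ha, hn]⟩)
        hx he0 ⟨0, rfl⟩
    · rintro ⟨n, hn⟩
      have key : ∀ n, ∃ x ∈ ℓ, tE a x = (nx (tC a ω))^[n] (tE a e0) := by
        intro n
        induction n with
        | zero => exact ⟨e0, he0, rfl⟩
        | succ n ih =>
          obtain ⟨x, hx, hxe⟩ := ih
          refine ⟨pv ω x, h.pv_mem_iff.2 hx, ?_⟩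
          rw [Function.iterate_succ_apply', ← hxe]
          conv_rhs => rw [← nx_pv ω x]
          rw [nx_tE' ha]
      obtain ⟨x, hx, hxe⟩ := key n
      exact ⟨x, hx, hxe.trans hn⟩

theorem isLoop_tL_iff {ω : Cfg} {ℓ : Finset Ed} (a : ℤ × ℤ) :
    IsLoop (tC a ω) (tL a ℓ) ↔ IsLoop ω ℓ := by
  refine ⟨fun h => ?_, fun h => IsLoop.tL h a⟩
  have := IsLoop.tL h (-a)
  rwa [tC_tC_neg, tL_tL_neg] at this

/-- The squares visited by the translated loop. -/
theorem vs_tL {ω : Cfg} {ℓ : Finset Ed} (h : IsLoop ω ℓ) (a : ℤ × ℤ) :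
    vs (tL a ℓ) = (vs ℓ).image (· + a) := by
  unfold vs tL
  rw [Finset.image_image, Finset.image_image]
  by_cases ha : Even (a.1 + a.2)
  · refine Finset.image_congr fun e _ => ?_
    simp only [Function.comp, hdv_tE ha]
  · have h1 : ∀ v, v ∈ ℓ.image tlv ↔ v ∈ ℓ.image hdv := by
      intro v
      simp only [Finset.mem_image]
      constructor
      · rintro ⟨e, he, rfl⟩
        refine ⟨pv ω e, h.pv_mem_iff.2 he, ?_⟩
        conv_rhs => rw [← nx_pv ω e]
        rw [tlv_nx]
      · rintro ⟨e, he, rfl⟩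
        exact ⟨nx ω e, h.nx_mem he, tlv_nx ω e⟩
    ext v
    have h2 := h1 (v - a)
    simp only [Finset.mem_image, Function.comp, hdv_tE' ha] at h2 ⊢
    constructor
    · rintro ⟨e, he, rfl⟩
      obtain ⟨e', he', h3⟩ := h2.1 ⟨e, he, by simp⟩
      exact ⟨e', he', by rw [h3]; simp⟩
    · rintro ⟨e, he, rfl⟩
      obtain ⟨e', he', h3⟩ := h2.2 ⟨e, he, by simp⟩
      exact ⟨e', he', by rw [h3]; simp⟩

theorem W_tL {a : ℤ × ℤ} (ℓ : Finset Ed) (s : ℤ × ℤ) :
    W (tL a ℓ) (s + a) = if Even (a.1 + a.2) then W ℓ s else - W ℓ s := by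
  rw [W_eq, W_eq]
  unfold tL
  rw [Finset.sum_image fun _ _ _ _ h => tE_inj a h]
  by_cases ha : Even (a.1 + a.2)
  · rw [if_pos ha]
    refine Finset.sum_congr rfl fun e _ => ?_
    rcases e with v | v
    · rfl
    · have h1 := sg_tE ha (Sum.inr v)
      simp only [tE] at h1
      simp only [tE, Wc, h1]
      have h2 : ((v + a).2 + 1 = (s + a).2 ∧ (s + a).1 ≤ (v + a).1) ↔
          (v.2 + 1 = s.2 ∧ s.1 ≤ v.1) := by
        simp only [Prod.fst_add, Prod.snd_add]
        constructor
        · rintro ⟨h, h'⟩; constructor <;> omega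
        · rintro ⟨h, h'⟩; constructor <;> omega
      simp only [h2]
  · rw [if_neg ha, ← Finset.sum_neg_distrib]
    refine Finset.sum_congr rfl fun e _ => ?_
    rcases e with v | v
    · rfl
    · have h1 := sg_tE' ha (Sum.inr v)
      simp only [tE] at h1
      simp only [tE, Wc, h1]
      have h2 : ((v + a).2 + 1 = (s + a).2 ∧ (s + a).1 ≤ (v + a).1) ↔
          (v.2 + 1 = s.2 ∧ s.1 ≤ v.1) := by
        simp only [Prod.fst_add, Prod.snd_add]
        constructor
        · rintro ⟨h, h'⟩; constructor <;> omega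
        · rintro ⟨h, h'⟩; constructor <;> omega
      simp only [h2]
      split_ifs <;> simp

theorem ins_tL {a : ℤ × ℤ} (ℓ : Finset Ed) (s : ℤ × ℤ) : s + a ∈ ins (tL a ℓ) ↔ s ∈ ins ℓ := by
  unfold ins
  rw [Set.mem_ofPred_eq, Set.mem_ofPred_eq, W_tL]
  split_ifs <;> simp

/-! ### The measure -/

theorem fair_not {t : Set Bool} : fair ((fun b => !b) ⁻¹' t) = fair t := by
  have hm : ∀ u : Set Bool, MeasurableSet u := fun u => trivial
  simp only [fair, Measure.coe_add, Measure.coe_smul, Pi.add_apply, Pi.smul_apply, smul_eq_mul,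
    Measure.dirac_apply' _ (hm _)]
  rw [add_comm]
  congr 1

theorem measurable_tC (a : ℤ × ℤ) : Measurable (tC a) := by
  refine measurable_pi_lambda _ fun v => ?_
  unfold tC
  split_ifs
  · exact measurable_pi_apply _
  · exact (measurable_of_countable fun b : Bool => !b).comp (measurable_pi_apply _)

theorem map_tC (a : ℤ × ℤ) : μ.map (tC a) = μ := by
  classical
  unfold μ
  refine Measure.eq_infinitePi _ fun s t ht => ?_
  rw [Measure.map_apply (measurable_tC a) (.pi s.countable_toSet fun _ _ => ht _)]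
  have h1 : tC a ⁻¹' ((s : Set (ℤ × ℤ)).pi t) =
      ((s.image (· - a) : Finset (ℤ × ℤ)) : Set (ℤ × ℤ)).pi
        (fun v => (fun b => if Even (a.1 + a.2) then b else !b) ⁻¹' t (v + a)) := by
    ext ω
    simp only [Set.mem_preimage, Set.mem_pi, Finset.coe_image, Set.mem_image, Finset.mem_coe,
      forall_exists_index, and_imp, forall_apply_eq_imp_iff₂, sub_add_cancel]
    refine forall₂_congr fun v _ => ?_
    unfold tC
    split_ifs <;> rfl
  rw [h1, Measure.infinitePi_pi _ (fun _ _ => MeasurableSet.of_discrete),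
    Finset.prod_image (fun x _ y _ h => sub_left_injective h)]
  refine Finset.prod_congr rfl fun v _ => ?_
  rw [sub_add_cancel]
  split_ifs
  · rfl
  · exact fair_not

theorem mp_tC (a : ℤ × ℤ) : MeasurePreserving (tC a) μ μ := ⟨measurable_tC a, map_tC a⟩

/-- The inverse. -/
theorem tC_neg_tC (a : ℤ × ℤ) (ω : Cfg) : tC a (tC (-a) ω) = ω := by
  have := tC_tC_neg (-a) ω
  rwa [neg_neg] at this

end Vale.Agent.P167.H542
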