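import Vale.Agent.P167.H542.Sm2
import Vale.Agent.P167.H542.Tr

/-!
# P167, block 2A-MOM: the mean of the small loop sum
-/

namespace Vale.Agent.P167.H542

open Finset Filter Topology MeasureTheory ProbabilityTheory
open Vale.Agent.P167.H562
open Vale.Agent.P167.H45

/-- The small loops around `z`. -/
def NlS (d : ℝ) (z : ℤ × ℤ) (ω : Cfg) : Set (Finset Ed) :=
  {ℓ | IsLoop ω ℓ ∧ Small d ℓ ∧ z ∈ ins ℓ}

/-- The number of the small loops around `z`. -/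
noncomputable def Nl (d : ℝ) (z : ℤ × ℤ) (ω : Cfg) : ℕ := (NlS d z ω).ncard

/-- The mean number of the small loops around the origin. -/
noncomputable def Nb (d : ℝ) : ℝ := ∫ ω, (Nl d 0 ω : ℝ) ∂μ

/-- The squares of a small loop around `z` are close to `z`. -/
theorem near_of_ins {d : ℝ} {ω : Cfg} {ℓ : Finset Ed} (hℓ : IsLoop ω ℓ) (hs : Small d ℓ)
    {z : ℤ × ℤ} (hz : z ∈ ins ℓ) {v : ℤ × ℤ} (hv : v ∈ vs ℓ) : (nm (v - z) : ℝ) < d := by
  set N : ℤ := ⌈d⌉ - 1 with hN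
  have h1 : ∀ u ∈ vs ℓ, nm (u - v) ≤ N := by
    intro u hu
    have := hs u hu v hv
    have h2 : nm (u - v) < ⌈d⌉ := Int.lt_ceil.2 this
    omega
  have h2 := s_out ω ℓ hℓ (v.1 - N) (v.1 + N) (v.2 - N) (v.2 + N) (fun u hu => by
    have := h1 u hu
    rw [nm_le] at this
    simp only [Prod.fst_sub, Prod.snd_sub, abs_le] at this
    omega) z hz
  have h3 : nm (v - z) ≤ N := by
    rw [nm_le]
    simp only [Prod.fst_sub, Prod.snd_sub, abs_le]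
    omega
  have h4 : (nm (v - z) : ℝ) ≤ N := by exact_mod_cast h3
  have h5 : (N : ℝ) < d := by
    rw [hN]; push_cast; linarith [Int.ceil_lt_add_one d]
  linarith

theorem NlS_fin (d : ℝ) (z : ℤ × ℤ) (ω : Cfg) : (NlS d z ω).Finite := by
  obtain ⟨F, hF⟩ := box_fin z ⌊d⌋
  refine (LV_fin s_two F ω).subset ?_
  rintro ℓ ⟨h1, h2, h3⟩
  obtain ⟨v, hv⟩ := vs_nonempty h1
  refine ⟨h1, v, hv, (hF _).2 ?_⟩
  rw [Int.le_floor]
  exact (near_of_ins h1 h2 h3 hv).le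

theorem Nl_loc (d : ℝ) (z : ℤ × ℤ) : ∃ F : Finset (ℤ × ℤ), ∀ ω ω' : Cfg, (∀ v ∈ F, ω v = ω' v) →
    Nl d z ω = Nl d z ω' := by
  obtain ⟨F, hF⟩ := box_fin z ⌊d⌋
  refine ⟨F, ?_⟩
  have key : ∀ ω ω' : Cfg, (∀ v ∈ F, ω v = ω' v) → NlS d z ω ⊆ NlS d z ω' := by
    rintro ω ω' hw ℓ ⟨h1, h2, h3⟩
    refine ⟨s_loc ω ω' ℓ h1 (fun v hv => hw v ((hF v).2 ?_)), h2, h3⟩
    rw [Int.le_floor]
    exact (near_of_ins h1 h2 h3 hv).le
  intro ω ω' hw
  unfold Nl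
  rw [Set.Subset.antisymm (key ω ω' hw) (key ω' ω fun v hv => (hw v hv).symm)]

theorem Nl_int (d : ℝ) (z : ℤ × ℤ) : Integrable (fun ω => (Nl d z ω : ℝ)) μ := by
  obtain ⟨F, hF⟩ := Nl_loc d z
  exact loc_int F fun ω ω' hw => by rw [hF ω ω' hw]

theorem small_tL {a : ℤ × ℤ} {d : ℝ} {ω : Cfg} {ℓ : Finset Ed} (h : IsLoop ω ℓ) :
    Small d (tL a ℓ) ↔ Small d ℓ := by
  unfold Small
  rw [vs_tL h]
  simp only [Finset.mem_image, forall_exists_index, and_imp, forall_apply_eq_imp_iff₂,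
    add_sub_add_right_eq_sub]

theorem Nl_tC (d : ℝ) (z a : ℤ × ℤ) (ω : Cfg) : Nl d (z + a) (tC a ω) = Nl d z ω := by
  have h : NlS d (z + a) (tC a ω) = tL a '' NlS d z ω := by
    ext ℓ
    constructor
    · rintro ⟨h1, h2, h3⟩
      refine ⟨tL (-a) ℓ, ?_, ?_⟩
      · have e : ℓ = tL a (tL (-a) ℓ) := by
          have := tL_tL_neg (-a) ℓ
          rw [neg_neg] at this
          exact this.symm
        rw [e] at h1 h2 h3
        have h4 := (isLoop_tL_iff a).1 h1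
        exact ⟨h4, (small_tL h4).1 h2, (ins_tL _ _).1 h3⟩
      · have := tL_tL_neg (-a) ℓ
        rwa [neg_neg] at this
    · rintro ⟨ℓ, ⟨h1, h2, h3⟩, rfl⟩
      exact ⟨IsLoop.tL h1 a, (small_tL h1).2 h2, (ins_tL _ _).2 h3⟩
  unfold Nl
  rw [h, Set.ncard_image_of_injOn]
  intro x _ y _ hxy
  have := congrArg (tL (-a)) hxy
  simpa only [tL_tL_neg] using this

theorem Nl_mean (d : ℝ) (z : ℤ × ℤ) : ∫ ω, (Nl d z ω : ℝ) ∂μ = Nb d := by
  unfold Nb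
  obtain ⟨F, hF⟩ := Nl_loc d z
  have hm : Measurable (fun ω => (Nl d z ω : ℝ)) :=
    meas_locfun F fun ω ω' hw => by rw [hF ω ω' hw]
  have h1 := (mp_tC z).map_eq
  calc ∫ ω, (Nl d z ω : ℝ) ∂μ = ∫ ω, (Nl d z ω : ℝ) ∂(μ.map (tC z)) := by rw [h1]
    _ = ∫ ω, (Nl d z (tC z ω) : ℝ) ∂μ :=
        integral_map (measurable_tC z).aemeasurable hm.aestronglyMeasurable
    _ = ∫ ω, (Nl d 0 ω : ℝ) ∂μ := by
        refine integral_congr_ae (Filter.Eventually.of_forall fun ω => ?_)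
        have := Nl_tC d 0 z ω
        rw [zero_add] at this
        simp only [this]

theorem Nb_nonneg (d : ℝ) : 0 ≤ Nb d := integral_nonneg fun _ => Nat.cast_nonneg _

/-- The sum of the masses as a sum over the sites. -/
theorem sum_G_eq {B d : ℝ} {S : Finset (ℤ × ℤ)} {g : ℤ × ℤ → ℝ} (hg : ∀ z ∉ S, g z = 0)
    (hS : ∀ z ∈ S, (nm z : ℝ) + d ≤ B) (ω : Cfg) :
    ∑ ℓ ∈ sb B d ω, G g ℓ = ∑ z ∈ S, g z * (Nl d z ω : ℝ) := by
  classical
  have h1 : ∀ ℓ ∈ sb B d ω, G g ℓ = ∑ z ∈ S, if z ∈ ins ℓ then g z else 0 := by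
    intro ℓ hℓ
    have hf : (ins ℓ).Finite := ins_fin s_out (mem_sb.1 hℓ).1
    unfold G
    rw [finsum_mem_eq_finite_toFinset_sum _ hf, ← Finset.sum_filter]
    refine (Finset.sum_subset_zero_on_sdiff ?_ ?_ fun _ _ => rfl).symm
    · intro z hz
      rw [Finset.mem_filter] at hz
      rw [Set.Finite.mem_toFinset]
      exact hz.2
    · intro z hz
      rw [Finset.mem_sdiff, Set.Finite.mem_toFinset, Finset.mem_filter] at hz
      exact hg z fun h => hz.2 ⟨h, hz.1⟩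
  rw [Finset.sum_congr rfl h1, Finset.sum_comm]
  refine Finset.sum_congr rfl fun z hz => ?_
  rw [← Finset.sum_filter, Finset.sum_const, nsmul_eq_mul, mul_comm]
  congr 2
  unfold Nl
  rw [← Set.ncard_coe_finset]
  congr 1
  ext ℓ
  rw [Finset.mem_coe, Finset.mem_filter, mem_sb]
  constructor
  · rintro ⟨⟨a1, -, a3⟩, a4⟩
    exact ⟨a1, a3, a4⟩
  · rintro ⟨a1, a3, a4⟩
    obtain ⟨v, hv⟩ := vs_nonempty a1
    refine ⟨⟨a1, ⟨v, hv, ?_⟩, a3⟩, a4⟩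
    have h2 := near_of_ins a1 a3 a4 hv
    have h5 : nm v ≤ nm (v - z) + nm z := by simpa using nm_add_le (v - z) z
    have h6 : (nm v : ℝ) ≤ nm (v - z) + nm z := by exact_mod_cast h5
    have := hS z hz
    linarith

/-- The mean. -/
theorem mean_G {B d : ℝ} {S : Finset (ℤ × ℤ)} {g : ℤ × ℤ → ℝ} (hg : ∀ z ∉ S, g z = 0)
    (hS : ∀ z ∈ S, (nm z : ℝ) + d ≤ B) :
    ∫ ω, ∑ ℓ ∈ sb B d ω, G g ℓ ∂μ = (∑ z ∈ S, g z) * Nb d := by
  simp only [sum_G_eq hg hS]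
  rw [integral_finsetSum _ fun z _ => (Nl_int d z).const_mul _, Finset.sum_mul]
  refine Finset.sum_congr rfl fun z _ => ?_
  rw [integral_const_mul, Nl_mean]

end Vale.Agent.P167.H542
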