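import Vale.Agent.P167.H45.Small3

/-!
# P167, block 2A-MOM: small loops in a box, signed charges

`sb B d ω`: the loops of diameter `< d` which meet the box of radius `B`. For a signed charge `g` with
`|g| ≤ Cm / ρ ^ 2` the sum of `G g` over `sb (R ρ) (κ ρ)`, centred, has bounded exponential moments of
all orders, and so has the sum of the squares. (Adapted from `H45/Small1-3`.)
-/

namespace Vale.Agent.P167.H542

open Finset Filter Topology MeasureTheory ProbabilityTheory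
open Vale.Agent.P167.H562
open Vale.Agent.P167.H45

/-- The small loops near the box. -/
def SB (B d : ℝ) (ω : Cfg) : Set (Finset Ed) :=
  {ℓ | IsLoop ω ℓ ∧ (∃ v ∈ vs ℓ, (nm v : ℝ) ≤ B) ∧ Small d ℓ}

theorem SB_fin (B d : ℝ) (ω : Cfg) : (SB B d ω).Finite := by
  obtain ⟨F, hF⟩ := box_fin 0 ⌊B⌋
  refine (LV_fin s_two F ω).subset ?_
  rintro ℓ ⟨h1, ⟨v, hv, h3⟩, -⟩
  exact ⟨h1, v, hv, (hF _).2 (by rw [Int.le_floor]; simpa using h3)⟩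

/-- The small loops near the box. -/
noncomputable def sb (B d : ℝ) (ω : Cfg) : Finset (Finset Ed) := (SB_fin B d ω).toFinset

theorem mem_sb {B d : ℝ} {ω : Cfg} {ℓ : Finset Ed} :
    ℓ ∈ sb B d ω ↔ IsLoop ω ℓ ∧ (∃ v ∈ vs ℓ, (nm v : ℝ) ≤ B) ∧ Small d ℓ := by
  rw [sb, Set.Finite.mem_toFinset]; rfl

theorem sb_loc {B d : ℝ} : ∃ F : Finset (ℤ × ℤ), ∀ ω ω' : Cfg, (∀ v ∈ F, ω v = ω' v) →
    sb B d ω = sb B d ω' := by
  classical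
  obtain ⟨F, hF⟩ := box_fin 0 ⌊B + d⌋
  refine ⟨F, ?_⟩
  have key : ∀ ω ω' : Cfg, (∀ v ∈ F, ω v = ω' v) → sb B d ω ⊆ sb B d ω' := by
    intro ω ω' hw ℓ hℓ
    rw [mem_sb] at hℓ ⊢
    obtain ⟨h1, ⟨u, hu, h3⟩, h4⟩ := hℓ
    refine ⟨s_loc ω ω' ℓ h1 (fun v hv => hw v ((hF v).2 ?_)), ⟨u, hu, h3⟩, h4⟩
    rw [Int.le_floor, sub_zero]
    have h5 : nm v ≤ nm (v - u) + nm u := by simpa using nm_add_le (v - u) u
    have h6 : (nm v : ℝ) ≤ nm (v - u) + nm u := by exact_mod_cast h5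
    have h7 := h4 v hv u hu
    linarith
  intro ω ω' hw
  exact Finset.Subset.antisymm (key ω ω' hw) (key ω' ω fun v hv => (hw v hv).symm)

/-- The mass surrounded by a small loop. -/
theorem G_bound' {b : ℝ} {g : ℤ × ℤ → ℝ} (hb : 0 ≤ b) (hg : ∀ z, |g z| ≤ b) {ω : Cfg}
    {ℓ : Finset Ed} (hℓ : IsLoop ω ℓ) {d : ℝ} (hs : Small d ℓ) :
    |G g ℓ| ≤ b * d ^ 2 := by
  classical
  have hne := vs_nonempty hℓ
  obtain ⟨v0, hv0⟩ := hne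
  have hd0 : 0 < d := by
    have := hs v0 hv0 v0 hv0
    simpa [nm] using this
  set a := bs ℓ with ha
  obtain ⟨n1, hn1⟩ : ∃ n1 : ℤ, n1 = ⌈d⌉ - 1 := ⟨_, rfl⟩
  have hn1' : (n1 : ℝ) < d := by
    rw [hn1]; push_cast; linarith [Int.ceil_lt_add_one d]
  have hn0 : 0 ≤ n1 := by
    rw [hn1]; have := Int.ceil_pos.2 hd0; omega
  have hbox : ∀ v ∈ vs ℓ, a.1 ≤ v.1 ∧ v.1 ≤ a.1 + n1 ∧ a.2 ≤ v.2 ∧ v.2 ≤ a.2 + n1 := by
    intro v hv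
    obtain ⟨h1, h2⟩ := small_box hs hv
    obtain ⟨h3, h4⟩ := bs_le hv
    have h5 : v.1 - a.1 < ⌈d⌉ := Int.lt_ceil.2 h1
    have h6 : v.2 - a.2 < ⌈d⌉ := Int.lt_ceil.2 h2
    refine ⟨h3, by omega, h4, by omega⟩
  set F : Finset (ℤ × ℤ) := (Finset.Ioc a.1 (a.1 + n1)) ×ˢ (Finset.Ioc a.2 (a.2 + n1)) with hF
  have hins : ins ℓ ⊆ (F : Set (ℤ × ℤ)) := by
    intro s hs'
    have := s_out ω ℓ hℓ _ _ _ _ hbox s hs'
    rw [Finset.mem_coe, hF, Finset.mem_product, Finset.mem_Ioc, Finset.mem_Ioc]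
    exact ⟨⟨this.1, this.2.1⟩, this.2.2.1, this.2.2.2⟩
  have hfin : (ins ℓ).Finite := (Finset.finite_toSet F).subset hins
  unfold G
  rw [finsum_mem_eq_finite_toFinset_sum _ hfin]
  have hcard : ((hfin.toFinset).card : ℝ) ≤ d ^ 2 := by
    have h1 : hfin.toFinset ⊆ F := by
      intro s hs'
      rw [Set.Finite.mem_toFinset] at hs'
      exact Finset.mem_coe.1 (hins hs')
    have h2 := Finset.card_le_card h1
    have h3 : (F.card : ℝ) = (n1 : ℝ) ^ 2 := by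
      rw [hF, Finset.card_product, Int.card_Ioc, Int.card_Ioc]
      have e1 : a.1 + n1 - a.1 = n1 := by ring
      have e2 : a.2 + n1 - a.2 = n1 := by ring
      rw [e1, e2, Nat.cast_mul, ← sq]
      have : ((n1.toNat : ℕ) : ℤ) = n1 := Int.toNat_of_nonneg hn0
      have : ((n1.toNat : ℕ) : ℝ) = n1 := by exact_mod_cast this
      rw [this]
    calc ((hfin.toFinset).card : ℝ) ≤ (F.card : ℝ) := by exact_mod_cast h2
      _ = (n1 : ℝ) ^ 2 := h3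
      _ ≤ d ^ 2 := pow_le_pow_left₀ (by exact_mod_cast hn0) hn1'.le 2
  calc |∑ s ∈ hfin.toFinset, g s| ≤ ∑ s ∈ hfin.toFinset, |g s| := Finset.abs_sum_le_sum_abs _ _
    _ ≤ ∑ _s ∈ hfin.toFinset, b := Finset.sum_le_sum fun s _ => hg s
    _ = ((hfin.toFinset).card : ℝ) * b := by rw [Finset.sum_const, nsmul_eq_mul]
    _ ≤ d ^ 2 * b := mul_le_mul_of_nonneg_right hcard hb
    _ = _ := by ring

open Classical in
/-- The part of the sum of `φ` over the small loops, for one scale and one box. -/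
noncomputable def XB (B x : ℝ) (φ : Finset Ed → ℝ) (j : ℕ) (z : ℤ × ℤ) (ω : Cfg) : ℝ :=
  ∑ ℓ ∈ (sb B x ω).filter (fun ℓ => cl x ℓ = j ∧ zz ⌈x / 2 ^ j⌉ ℓ = z), φ ℓ

/-- A small loop and its scale. -/
theorem scale_of' {B x : ℝ} {J : ℕ} (hJ : x / 2 ^ J ≤ 1) {ω : Cfg} {ℓ : Finset Ed}
    (hℓ : ℓ ∈ sb B x ω) : cl x ℓ < J ∧ Small (x / 2 ^ (cl x ℓ)) ℓ ∧
      ¬ Small (x / 2 ^ (cl x ℓ + 1)) ℓ := by
  rw [mem_sb] at hℓ
  exact cl_spec hℓ.2.2 (not_small_one s_con hℓ.1 hJ (two_squares hℓ.1))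

theorem XB_loc {B x : ℝ} {J : ℕ} (hJ : x / 2 ^ J ≤ 1) (φ : Finset Ed → ℝ) (j : ℕ) (z : ℤ × ℤ) :
    LocFun (Bq ⌈x / 2 ^ j⌉ z) (XB B x φ j z) := by
  classical
  intro ω ω' hw
  have key : ∀ ω ω' : Cfg, (∀ v ∈ Bq ⌈x / 2 ^ j⌉ z, ω v = ω' v) →
      (sb B x ω).filter (fun ℓ => cl x ℓ = j ∧ zz ⌈x / 2 ^ j⌉ ℓ = z) ⊆
      (sb B x ω').filter (fun ℓ => cl x ℓ = j ∧ zz ⌈x / 2 ^ j⌉ ℓ = z) := by
    intro ω ω' hw ℓ hℓ
    rw [Finset.mem_filter] at hℓ ⊢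
    obtain ⟨h1, h2, h3⟩ := hℓ
    refine ⟨?_, h2, h3⟩
    have h4 := (scale_of' hJ h1).2.1
    rw [mem_sb] at h1 ⊢
    rw [h2] at h4
    refine ⟨s_loc ω ω' ℓ h1.1 (fun v hv => hw v ?_), h1.2⟩
    rw [← h3]
    exact box_of_small h4 hv
  unfold XB
  rw [Finset.Subset.antisymm (key ω ω' hw) (key ω' ω fun v hv => (hw v hv).symm)]

/-- Bound of one term by the number of loops of the scale. -/
theorem XB_le {B x : ℝ} {J : ℕ} (hJ : x / 2 ^ J ≤ 1) {φ : Finset Ed → ℝ} {j : ℕ}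
    (hj : 1 ≤ x / 2 ^ j) (z : ℤ × ℤ) (ω : Cfg) {a : ℝ} (ha : 0 ≤ a)
    (hφ : ∀ ℓ, IsLoop ω ℓ → Small (x / 2 ^ j) ℓ → |φ ℓ| ≤ a) :
    |XB B x φ j z ω| ≤ a * ((BL (gp ⌈x / 2 ^ j⌉ z) (2 * (⌈x / 2 ^ j⌉ : ℝ))
      (1 / 8 * (2 * (⌈x / 2 ^ j⌉ : ℝ))) ω).ncard : ℝ) := by
  classical
  set L : ℤ := ⌈x / 2 ^ j⌉ with hL
  have hL0 : 0 < L := Int.ceil_pos.2 (by linarith)
  set F := (sb B x ω).filter (fun ℓ => cl x ℓ = j ∧ zz L ℓ = z) with hF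
  have h1 : ∀ ℓ ∈ F, IsLoop ω ℓ ∧ Small (x / 2 ^ j) ℓ ∧ ¬ Small (x / 2 ^ (j + 1)) ℓ ∧
      zz L ℓ = z := by
    intro ℓ hℓ
    rw [hF, Finset.mem_filter] at hℓ
    have h2 := scale_of' hJ hℓ.1
    rw [hℓ.2.1] at h2
    exact ⟨(mem_sb.1 hℓ.1).1, h2.2.1, h2.2.2, hℓ.2.2⟩
  have h2 : |XB B x φ j z ω| ≤ F.card * a := by
    unfold XB
    rw [← hL, ← hF]
    refine (Finset.abs_sum_le_sum_abs _ _).trans ?_
    calc ∑ ℓ ∈ F, |φ ℓ| ≤ ∑ _ℓ ∈ F, a := Finset.sum_le_sum fun ℓ hℓ => hφ ℓ (h1 ℓ hℓ).1 (h1 ℓ hℓ).2.1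
      _ = _ := by rw [Finset.sum_const, nsmul_eq_mul]
  have h3 : F.card ≤ (BL (gp L z) (2 * (L : ℝ)) (1 / 8 * (2 * (L : ℝ))) ω).ncard := by
    rw [← Set.ncard_coe_finset]
    refine Set.ncard_le_ncard ?_ (BL_fin s_two _ _ _ ω)
    intro ℓ hℓ
    obtain ⟨g1, g2, g3, g4⟩ := h1 ℓ (Finset.mem_coe.1 hℓ)
    refine ⟨g1, ?_, fun hs => g3 (Small.mono ?_ hs)⟩
    · obtain ⟨v, hv⟩ := vs_nonempty g1
      refine ⟨v, hv, ?_⟩
      have h5 := box_of_small g2 hv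
      rw [← hL, g4] at h5
      obtain ⟨b1, b2, b3, b4⟩ := h5
      have h6 : nm (v - gp L z) ≤ 2 * L := by
        rw [nm_le]
        simp only [gp, Prod.fst_sub, Prod.snd_sub, abs_le]
        refine ⟨⟨?_, ?_⟩, ?_, ?_⟩ <;> linarith
      exact_mod_cast h6
    · have h5 : (L : ℝ) ≤ 2 * (x / 2 ^ j) := by
        have := Int.ceil_lt_add_one (x / 2 ^ j)
        rw [← hL] at this
        linarith
      have h6 : x / 2 ^ (j + 1) = x / 2 ^ j / 2 := by rw [pow_succ]; field_simp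
      rw [h6]; linarith
  calc |XB B x φ j z ω| ≤ F.card * a := h2
    _ ≤ ((BL (gp L z) (2 * (L : ℝ)) (1 / 8 * (2 * (L : ℝ))) ω).ncard : ℝ) * a :=
        mul_le_mul_of_nonneg_right (by exact_mod_cast h3) ha
    _ = _ := by ring

/-- The boxes of scale `j` which matter, and their number. -/
theorem grid_scale' {κ ρ R : ℝ} (hκ : 0 < κ) (hκ1 : κ ≤ 1) (hρ : 0 < ρ) (hR : 0 ≤ R) :
    ∃ Ig : ℕ → Finset (ℤ × ℤ),
    ∀ j : ℕ, 1 ≤ κ * ρ / 2 ^ j → ((Ig j).card : ℝ) ≤ (2 * R + 12) ^ 2 / κ ^ 2 * 4 ^ j ∧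
      ∀ ω, ∀ ℓ ∈ sb (R * ρ) (κ * ρ) ω, zz ⌈κ * ρ / 2 ^ j⌉ ℓ ∈ Ig j := by
  classical
  have hex : ∀ j : ℕ, ∃ I : Finset (ℤ × ℤ), 1 ≤ κ * ρ / 2 ^ j →
      (I.card : ℝ) ≤ (2 * R + 12) ^ 2 / κ ^ 2 * 4 ^ j ∧
      ∀ ω, ∀ ℓ ∈ sb (R * ρ) (κ * ρ) ω, zz ⌈κ * ρ / 2 ^ j⌉ ℓ ∈ I := by
    intro j
    by_cases hj : 1 ≤ κ * ρ / 2 ^ j
    · set y : ℝ := κ * ρ / 2 ^ j with hy
      set L : ℤ := ⌈y⌉ with hL
      have hL1 : 1 ≤ L := Int.one_le_ceil_iff.2 (by linarith)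
      have hyL : y ≤ L := Int.le_ceil y
      have hy0 : 0 < y := by linarith
      set P : ℤ := ⌈(R + 1) * ρ⌉ + L with hP
      have hP0 : 0 ≤ P := by
        have : 0 ≤ ⌈(R + 1) * ρ⌉ := Int.ceil_nonneg (by positivity)
        omega
      obtain ⟨I, hI1, hI2⟩ := grid_fin 0 hL1 hP0
      refine ⟨I, fun _ => ⟨?_, ?_⟩⟩
      · have h1 : ((I.card : ℤ) : ℝ) ≤ ((2 * P / L + 2 : ℤ) : ℝ) ^ 2 := by exact_mod_cast hI2
        have hLR : (0 : ℝ) < L := by exact_mod_cast (by omega : 0 < L)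
        have h2 : ((2 * P / L : ℤ) : ℝ) ≤ 2 * P / L := by
          rw [le_div_iff₀ hLR]
          exact_mod_cast Int.ediv_mul_le (2 * P) (by omega : L ≠ 0)
        have h3 : (P : ℝ) ≤ (R + 1) * ρ + 1 + L := by
          rw [hP]; push_cast
          linarith [Int.ceil_lt_add_one ((R + 1) * ρ)]
        have h4 : (2 * P : ℝ) / L ≤ 2 * (R + 1) * (ρ / y) + 4 := by
          rw [div_le_iff₀ hLR]
          have h5 : 2 * (R + 1) * ρ ≤ 2 * (R + 1) * (ρ / y) * L := by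
            rw [← mul_div_assoc, div_mul_eq_mul_div, le_div_iff₀ hy0]
            exact mul_le_mul_of_nonneg_left hyL (by positivity)
          have h6 : (1 : ℝ) ≤ L := by exact_mod_cast hL1
          nlinarith
        have h5 : ρ / y = 2 ^ j / κ := by
          rw [hy]; field_simp
        have h8 : (1 : ℝ) ≤ 2 ^ j / κ := by
          rw [le_div_iff₀ hκ]
          have : (1 : ℝ) ≤ 2 ^ j := one_le_pow₀ (by norm_num)
          linarith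
        have h7 : ((2 * P / L + 2 : ℤ) : ℝ) ≤ (2 * R + 12) * (2 ^ j / κ) := by
          push_cast
          rw [h5] at h4
          nlinarith
        have h8 : (0 : ℝ) ≤ ((2 * P / L + 2 : ℤ) : ℝ) := by
          have : 0 ≤ 2 * P / L := Int.ediv_nonneg (by omega) (by omega)
          exact_mod_cast (by omega : (0 : ℤ) ≤ 2 * P / L + 2)
        have h9 : ((I.card : ℤ) : ℝ) = (I.card : ℝ) := by norm_cast
        rw [h9] at h1
        calc (I.card : ℝ) ≤ ((2 * P / L + 2 : ℤ) : ℝ) ^ 2 := h1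
          _ ≤ ((2 * R + 12) * (2 ^ j / κ)) ^ 2 := pow_le_pow_left₀ h8 h7 2
          _ = (2 * R + 12) ^ 2 / κ ^ 2 * 4 ^ j := by
              have : (4 : ℝ) ^ j = (2 ^ j) ^ 2 := by
                rw [← pow_mul, mul_comm, pow_mul]; norm_num
              rw [this]; field_simp
      · intro ω ℓ hℓ
        rw [mem_sb] at hℓ
        obtain ⟨g1, ⟨u, hu, g2⟩, g3⟩ := hℓ
        apply hI1
        rw [sub_zero]
        obtain ⟨b1, b2, b3, b4⟩ := zz_box (by omega : 0 < L) ℓ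
        obtain ⟨c1, c2⟩ := small_box g3 hu
        obtain ⟨e1, e2⟩ := bs_le hu
        have hk8 : κ * ρ ≤ ρ := by nlinarith
        have f1 : |u.1| ≤ nm u := le_max_left _ _
        have f2 : |u.2| ≤ nm u := le_max_right _ _
        have f1' : ((|u.1| : ℤ) : ℝ) ≤ R * ρ := le_trans (by exact_mod_cast f1) g2
        have f2' : ((|u.2| : ℤ) : ℝ) ≤ R * ρ := le_trans (by exact_mod_cast f2) g2
        push_cast at f1' f2' c1 c2
        rw [abs_le] at f1' f2'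
        have hbb : ∀ b w : ℤ, ((b : ℤ) : ℝ) ≤ w → ((w : ℤ) : ℝ) - b < κ * ρ → -(R * ρ) ≤ (w : ℝ) →
            (w : ℝ) ≤ R * ρ → -⌈(R + 1) * ρ⌉ ≤ b ∧ b ≤ ⌈(R + 1) * ρ⌉ := by
          intro b w q1 q2 q3 q4
          have q5 : (b : ℝ) ≤ (R + 1) * ρ := by linarith
          have q6 : -((R + 1) * ρ) ≤ (b : ℝ) := by linarith
          constructor
          · have : (-b : ℝ) ≤ ⌈(R + 1) * ρ⌉ := le_trans (by linarith) (Int.le_ceil ((R + 1) * ρ))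
            have : -b ≤ ⌈(R + 1) * ρ⌉ := by exact_mod_cast this
            omega
          · have : (b : ℝ) ≤ ⌈(R + 1) * ρ⌉ := le_trans q5 (Int.le_ceil ((R + 1) * ρ))
            exact_mod_cast this
        obtain ⟨k1, k2⟩ := hbb (bs ℓ).1 u.1 (by exact_mod_cast e1) c1 f1'.1 f1'.2
        obtain ⟨k3, k4⟩ := hbb (bs ℓ).2 u.2 (by exact_mod_cast e2) c2 f2'.1 f2'.2
        rw [nm_le]
        simp only [gp]
        rw [abs_le, abs_le]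
        refine ⟨⟨?_, ?_⟩, ?_, ?_⟩ <;> linarith
    · exact ⟨∅, fun h => absurd h hj⟩
  choose Ig hIg using hex
  exact ⟨Ig, hIg⟩

/-- The decomposition. -/
theorem decomp' {B x : ℝ} {J : ℕ} (hJ : x / 2 ^ J ≤ 1) (hJ' : ∀ j < J, 1 ≤ x / 2 ^ j)
    {Ig : ℕ → Finset (ℤ × ℤ)}
    (hIg : ∀ j, 1 ≤ x / 2 ^ j → ∀ ω, ∀ ℓ ∈ sb B x ω, zz ⌈x / 2 ^ j⌉ ℓ ∈ Ig j)
    (φ : Finset Ed → ℝ) (ω : Cfg) :
    ∑ ℓ ∈ sb B x ω, φ ℓ = ∑ j ∈ Finset.range J, ∑ z ∈ Ig j, XB B x φ j z ω := by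
  classical
  have h1 : ∑ ℓ ∈ sb B x ω, φ ℓ =
      ∑ j ∈ Finset.range J, ∑ ℓ ∈ (sb B x ω).filter (fun ℓ => cl x ℓ = j), φ ℓ := by
    rw [Finset.sum_fiberwise_of_maps_to]
    intro ℓ hℓ
    exact Finset.mem_range.2 (scale_of' hJ hℓ).1
  rw [h1]
  refine Finset.sum_congr rfl fun j hj => ?_
  unfold XB
  have h2 : ∑ ℓ ∈ (sb B x ω).filter (fun ℓ => cl x ℓ = j), φ ℓ =
      ∑ z ∈ Ig j, ∑ ℓ ∈ ((sb B x ω).filter (fun ℓ => cl x ℓ = j)).filter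
        (fun ℓ => zz ⌈x / 2 ^ j⌉ ℓ = z), φ ℓ := by
    rw [Finset.sum_fiberwise_of_maps_to]
    intro ℓ hℓ
    exact hIg j (hJ' j (Finset.mem_range.1 hj)) ω ℓ (Finset.mem_filter.1 hℓ).1
  rw [h2]
  refine Finset.sum_congr rfl fun z _ => ?_
  rw [Finset.filter_filter]

end Vale.Agent.P167.H542
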