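import Vale.Agent.P167.H542.Sm1

/-!
# P167, block 2A-MOM: exponential moments for the small loops, signed charges
-/

namespace Vale.Agent.P167.H542

open Finset Filter Topology MeasureTheory ProbabilityTheory
open Vale.Agent.P167.H562
open Vale.Agent.P167.H45

theorem exists_scale {κ ρ : ℝ} (x : ℝ) (_hx : x = κ * ρ) :
    ∃ J : ℕ, x / 2 ^ J ≤ 1 ∧ ∀ j < J, 1 ≤ x / 2 ^ j := by
  have hex : ∃ J : ℕ, x / 2 ^ J ≤ 1 := by
    obtain ⟨J, hJ⟩ := pow_unbounded_of_one_lt x (by norm_num : (1 : ℝ) < 2)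
    exact ⟨J, by rw [div_le_one (by positivity)]; exact hJ.le⟩
  classical
  exact ⟨Nat.find hex, Nat.find_spec hex, fun j hj => (not_le.1 (Nat.find_min hex hj)).le⟩

/-- Linear statistics of the small loops. -/
theorem lin_part' (hX : S_crossL) {Cm κ R : ℝ} (hCm : 0 < Cm) (hκ : 0 < κ) (hκ1 : κ ≤ 1)
    (hR : 0 ≤ R) (T1 : ℝ) : ∃ B : ℝ, ∀ ρ : ℝ, 0 < ρ → ∀ g : ℤ × ℤ → ℝ,
      (∀ z, |g z| ≤ Cm / ρ ^ 2) → ∀ t : ℝ, |t| ≤ T1 →
      Em μ (fun ω => t * (∑ ℓ ∈ sb (R * ρ) (κ * ρ) ω, G g ℓ -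
        ∫ ω', ∑ ℓ ∈ sb (R * ρ) (κ * ρ) ω', G g ℓ ∂μ)) ≤ ENNReal.ofReal (Real.exp B) := by
  classical
  set α : ℝ := Cm * κ ^ 2 with hα
  set s1 : ℝ := 8 * α * |T1| with hs1
  have hα0 : 0 < α := by positivity
  have hs0 : 0 ≤ s1 := by positivity
  obtain ⟨C, hC⟩ := large_gen hX s_con s_two (1 / 8) (s1 + 1) (by norm_num)
  set M : ℝ := max C 0 with hM
  have hM0 : 0 ≤ M := le_max_right _ _
  refine ⟨8 * M * Real.exp ((s1 + 1) * M) * (4 : ℕ) ^ 2 * α ^ 2 * |(2 * R + 12) ^ 2 / κ ^ 2| *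
    |T1| ^ 2, fun ρ hρ0 m hm t ht => ?_⟩
  have ht' : |t| ≤ |T1| := ht.trans (le_abs_self _)
  obtain ⟨Ig, hIg⟩ := grid_scale' hκ hκ1 hρ0 hR
  obtain ⟨J, hJ, hJ'⟩ := exists_scale (κ := κ) (ρ := ρ) (κ * ρ) rfl
  have hGb : ∀ j : ℕ, ∀ ω ℓ, IsLoop ω ℓ → Small (κ * ρ / 2 ^ j) ℓ →
      |G m ℓ| ≤ α * (1 / 4) ^ j := by
    intro j ω ℓ h1 h2
    refine (G_bound' (by positivity) hm h1 h2).trans (le_of_eq ?_)
    rw [hα]
    have : ((1 : ℝ) / 4) ^ j = 1 / (2 ^ j) ^ 2 := by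
      rw [← pow_mul, mul_comm j 2, pow_mul, one_div, inv_pow]; norm_num
    rw [this]; field_simp
  have hmain := multiscale (μ := μ) J 4 (by norm_num)
    (fun j k => (Ig j).filter (fun z => code z = k))
    (X := fun j z ω => XB (R * ρ) (κ * ρ) (G m) j z ω)
    (K := fun j z ω => ((BL (gp ⌈κ * ρ / 2 ^ j⌉ z) (2 * (⌈κ * ρ / 2 ^ j⌉ : ℝ))
      (1 / 8 * (2 * (⌈κ * ρ / 2 ^ j⌉ : ℝ))) ω).ncard : ℝ))
    (fun j _ k z _ => by
      obtain ⟨F, hF⟩ := Bq_fin ⌈κ * ρ / 2 ^ j⌉ z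
      exact meas_locfun F fun ω ω' hw => XB_loc hJ (G m) j z ω ω' fun v hv => hw v (hF v hv))
    (fun j _ k z _ => BL_measR _ _ _)
    (fun j _ k => by
      refine iIndepFun_of_local iInd
        (S := fun z : ((Ig j).filter (fun z => code z = k) : Finset (ℤ × ℤ)) =>
          Bq ⌈κ * ρ / 2 ^ j⌉ (z : ℤ × ℤ)) ?_ (fun z => ?_) (fun z => XB_loc hJ (G m) j z)
      · intro z z' hzz
        have h1 : code (z : ℤ × ℤ) = k := (Finset.mem_filter.1 z.2).2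
        have h2 : code (z' : ℤ × ℤ) = k := (Finset.mem_filter.1 z'.2).2
        obtain ⟨h3, h4⟩ := code_eq (h1.trans h2.symm)
        exact Bq_disj (fun h => hzz (Subtype.ext h)) h3 h4
      · obtain ⟨F, hF⟩ := Bq_fin ⌈κ * ρ / 2 ^ j⌉ (z : ℤ × ℤ)
        exact meas_locfun F fun ω ω' hw => XB_loc hJ (G m) j z ω ω' fun v hv => hw v (hF v hv))
    (α := α) (β := (2 * R + 12) ^ 2 / κ ^ 2) (s := s1) (t := t) (M := M) hα0.le hs0 hM0
    (fun j _ k z _ ω => by positivity)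
    (fun j hj k z _ ω => XB_le hJ (hJ' j hj) z ω (by positivity) (fun ℓ h1 h2 => hGb j ω ℓ h1 h2))
    (fun j hj k => by
      refine le_trans ?_ (hIg j (hJ' j hj)).1
      exact_mod_cast Finset.card_filter_le _ _)
    (by
      rw [hs1]
      have : 8 * α * |t| ≤ 8 * α * |T1| := mul_le_mul_of_nonneg_left ht' (by positivity)
      push_cast
      linarith)
    (fun j hj k z _ => by
      refine (hC _ (2 * (⌈κ * ρ / 2 ^ j⌉ : ℝ)) ?_).trans (ENNReal.ofReal_le_ofReal (le_max_left _ _))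
      have : (1 : ℝ) ≤ ⌈κ * ρ / 2 ^ j⌉ := (hJ' j hj).trans (Int.le_ceil _)
      linarith)
  have hint : ∀ j z, Integrable (fun ω => XB (R * ρ) (κ * ρ) (G m) j z ω) μ := by
    intro j z
    obtain ⟨F, hF⟩ := Bq_fin ⌈κ * ρ / 2 ^ j⌉ z
    exact loc_int F fun ω ω' hw => XB_loc hJ (G m) j z ω ω' fun v hv => hw v (hF v hv)
  have hdec := fun ω => decomp' hJ hJ' (fun j hj => (hIg j hj).2) (G m) ω
  have hI : ∫ ω', ∑ ℓ ∈ sb (R * ρ) (κ * ρ) ω', G m ℓ ∂μ =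
      ∑ j ∈ Finset.range J, ∑ z ∈ Ig j, ∫ ω', XB (R * ρ) (κ * ρ) (G m) j z ω' ∂μ := by
    simp only [hdec]
    rw [integral_finsetSum _ fun j _ => integrable_finsetSum _ fun z _ => hint j z]
    refine Finset.sum_congr rfl fun j _ => ?_
    rw [integral_finsetSum _ fun z _ => hint j z]
  have heq : (fun ω => t * (∑ ℓ ∈ sb (R * ρ) (κ * ρ) ω, G m ℓ -
      ∫ ω', ∑ ℓ ∈ sb (R * ρ) (κ * ρ) ω', G m ℓ ∂μ)) =
      fun ω => t * ∑ j ∈ Finset.range J, ∑ k : Fin 4, ∑ i ∈ (Ig j).filter (fun z => code z = k),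
        (XB (R * ρ) (κ * ρ) (G m) j i ω - ∫ x, XB (R * ρ) (κ * ρ) (G m) j i x ∂μ) := by
    ext ω
    congr 1
    rw [hI, hdec, ← Finset.sum_sub_distrib]
    refine Finset.sum_congr rfl fun j _ => ?_
    rw [← Finset.sum_sub_distrib]
    exact (Finset.sum_fiberwise (Ig j) code _).symm
  rw [heq]
  refine hmain.trans (ENNReal.ofReal_le_ofReal (Real.exp_le_exp.2 ?_))
  have ht2 : t ^ 2 ≤ |T1| ^ 2 := by
    rw [← sq_abs t]; exact pow_le_pow_left₀ (abs_nonneg _) ht' 2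
  exact mul_le_mul_of_nonneg_left ht2 (by positivity)

/-- Quadratic statistics of the small loops. -/
theorem quad_part' (hX : S_crossL) {Cm κ R : ℝ} (hCm : 0 < Cm) (hκ : 0 < κ) (hκ1 : κ ≤ 1)
    (hR : 0 ≤ R) {lam : ℝ} (hlam : 0 ≤ lam) : ∃ B : ℝ, ∀ ρ : ℝ, 0 < ρ → ∀ g : ℤ × ℤ → ℝ,
      (∀ z, |g z| ≤ Cm / ρ ^ 2) →
      Em μ (fun ω => lam * ∑ ℓ ∈ sb (R * ρ) (κ * ρ) ω, (G g ℓ) ^ 2) ≤
        ENNReal.ofReal (Real.exp B) := by
  classical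
  set α : ℝ := Cm * κ ^ 2 with hα
  set β : ℝ := (2 * R + 12) ^ 2 / κ ^ 2 with hβ
  have hα0 : 0 < α := by positivity
  have hβ0 : 0 < β := by positivity
  obtain ⟨C, hC⟩ := large_gen hX s_con s_two (1 / 8) (2 * β * lam * α ^ 2) (by norm_num)
  set M : ℝ := max C 1 with hM
  have hM1 : 1 ≤ M := le_max_right _ _
  have hlogM : 0 ≤ Real.log M := Real.log_nonneg hM1
  refine ⟨Real.log M, fun ρ hρ0 m hm => ?_⟩
  obtain ⟨Ig, hIg⟩ := grid_scale' hκ hκ1 hρ0 hR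
  obtain ⟨J, hJ, hJ'⟩ := exists_scale (κ := κ) (ρ := ρ) (κ * ρ) rfl
  have hGb : ∀ j : ℕ, ∀ ω ℓ, IsLoop ω ℓ → Small (κ * ρ / 2 ^ j) ℓ →
      |(G m ℓ) ^ 2| ≤ (α * (1 / 4) ^ j) ^ 2 := by
    intro j ω ℓ h1 h2
    rw [abs_of_nonneg (sq_nonneg _), ← sq_abs]
    refine pow_le_pow_left₀ (abs_nonneg _)
      ((G_bound' (by positivity) hm h1 h2).trans (le_of_eq ?_)) 2
    rw [hα]
    have : ((1 : ℝ) / 4) ^ j = 1 / (2 ^ j) ^ 2 := by
      rw [← pow_mul, mul_comm j 2, pow_mul, one_div, inv_pow]; norm_num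
    rw [this]; field_simp
  set K : ℕ → ℤ × ℤ → Cfg → ℝ := fun j z ω => ((BL (gp ⌈κ * ρ / 2 ^ j⌉ z)
    (2 * (⌈κ * ρ / 2 ^ j⌉ : ℝ)) (1 / 8 * (2 * (⌈κ * ρ / 2 ^ j⌉ : ℝ))) ω).ncard : ℝ) with hK
  have hKm : ∀ j z, Measurable (K j z) := fun j z => BL_measR _ _ _
  let I : Finset (Σ _ : ℕ, ℤ × ℤ) := (Finset.range J).sigma Ig
  let θ : (Σ _ : ℕ, ℤ × ℤ) → ℝ := fun p => (1 / 2) ^ (p.1 + 1) * (1 / 4) ^ p.1 / β
  have hθ : ∀ p, 0 < θ p := fun p => by positivity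
  have hsum : ∑ p ∈ I, θ p ≤ 1 := by
    rw [Finset.sum_sigma]
    calc ∑ j ∈ Finset.range J, ∑ z ∈ Ig j, θ ⟨j, z⟩
        ≤ ∑ j ∈ Finset.range J, ((1 : ℝ) / 2) ^ (j + 1) := by
          refine Finset.sum_le_sum fun j hj => ?_
          simp only [θ, Finset.sum_const, nsmul_eq_mul]
          have h1 := (hIg j (hJ' j (Finset.mem_range.1 hj))).1
          rw [← hβ] at h1
          calc ((Ig j).card : ℝ) * ((1 / 2) ^ (j + 1) * (1 / 4) ^ j / β)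
              ≤ (β * 4 ^ j) * ((1 / 2) ^ (j + 1) * (1 / 4) ^ j / β) :=
                mul_le_mul_of_nonneg_right h1 (by positivity)
            _ = (1 / 2) ^ (j + 1) * ((4 : ℝ) ^ j * (1 / 4) ^ j) := by field_simp
            _ = (1 / 2) ^ (j + 1) := by rw [← mul_pow]; norm_num
      _ ≤ 1 := geom_half J
  have hB : ∀ p ∈ I, Em μ (fun ω => (θ p)⁻¹ * (lam * ((α * (1 / 4) ^ p.1) ^ 2 * K p.1 p.2 ω))) ≤
      ENNReal.ofReal (Real.exp (Real.log M)) := by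
    rintro ⟨j, z⟩ hp
    have hj : j < J := Finset.mem_range.1 (Finset.mem_sigma.1 hp).1
    have h1 : (1 : ℝ) ≤ ⌈κ * ρ / 2 ^ j⌉ := (hJ' j hj).trans (Int.le_ceil _)
    have h2 := hC (gp ⌈κ * ρ / 2 ^ j⌉ z) (2 * (⌈κ * ρ / 2 ^ j⌉ : ℝ)) (by linarith)
    rw [Real.exp_log (by linarith)]
    refine le_trans (Em_mono fun ω => ?_) (h2.trans (ENNReal.ofReal_le_ofReal (le_max_left _ _)))
    have hK0 : 0 ≤ K j z ω := by simp only [hK]; positivity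
    have e1 : (θ ⟨j, z⟩)⁻¹ * (lam * ((α * (1 / 4) ^ j) ^ 2 * K j z ω)) =
        (2 * β * lam * α ^ 2) * ((1 / 2) ^ j * K j z ω) := by
      simp only [θ]
      have e2 : ((1 : ℝ) / 4) ^ j = (1 / 2) ^ j * (1 / 2) ^ j := by rw [← mul_pow]; norm_num
      have e3 : ((1 : ℝ) / 2) ^ j ≠ 0 := by positivity
      rw [e2, pow_succ]
      field_simp
    show (θ ⟨j, z⟩)⁻¹ * (lam * ((α * (1 / 4) ^ j) ^ 2 * K j z ω)) ≤ _
    rw [e1]
    have h3 : ((1 : ℝ) / 2) ^ j * K j z ω ≤ 1 * K j z ω :=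
      mul_le_mul_of_nonneg_right (pow_le_one₀ (by norm_num) (by norm_num)) hK0
    rw [one_mul] at h3
    exact mul_le_mul_of_nonneg_left h3 (by positivity)
  have hfin := Em_holder (μ := μ) I (Y := fun p ω => lam * ((α * (1 / 4) ^ p.1) ^ 2 * K p.1 p.2 ω))
    (fun p _ => ((hKm p.1 p.2).const_mul _).const_mul _) (fun p _ => hθ p) hsum hB
  have hle : ∀ ω, lam * ∑ ℓ ∈ sb (R * ρ) (κ * ρ) ω, (G m ℓ) ^ 2 ≤
      ∑ p ∈ I, lam * ((α * (1 / 4) ^ p.1) ^ 2 * K p.1 p.2 ω) := by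
    intro ω
    rw [decomp' hJ hJ' (fun j hj => (hIg j hj).2) (fun ℓ => (G m ℓ) ^ 2) ω, ← Finset.mul_sum,
      Finset.sum_sigma]
    refine mul_le_mul_of_nonneg_left (Finset.sum_le_sum fun j hj => Finset.sum_le_sum fun z _ => ?_)
      hlam
    exact (le_abs_self _).trans (XB_le hJ (hJ' j (Finset.mem_range.1 hj)) z ω (by positivity)
      (fun ℓ h1 h2 => hGb j ω ℓ h1 h2))
  refine (Em_mono hle).trans (hfin.trans (ENNReal.ofReal_le_ofReal (Real.exp_le_exp.2 ?_)))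
  rw [← Finset.sum_mul]
  calc (∑ p ∈ I, θ p) * Real.log M ≤ 1 * Real.log M := mul_le_mul_of_nonneg_right hsum hlogM
    _ = _ := one_mul _

end Vale.Agent.P167.H542
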